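import Crest.Agent.N228.N3.Defs
import Crest.Agent.N228.Gr.Ims

/-!
# Row 228, dimension three: closing up an embedded manifold (helper66)

The proofs are those of `N222.dbl` and `Gr.close_up`, keeping track of injectivity.
-/

set_option autoImplicit false
set_option linter.unusedSectionVars false
open MeasureTheory Set Filter Topology Function
open scoped ContDiff
open Crest.Agent.N222 Crest.Agent.N222.Imm Crest.Agent.N228.Gr

noncomputable section

namespace Crest.Agent.N228.N3

variable {d : ℕ} {ι : Type} [Fintype ι] [DecidableEq ι] {X : Type}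
  [TopologicalSpace X] [T2Space X] [SecondCountableTopology X] [MeasurableSpace X] [BorelSpace X]
  {M : Imm d ι X}

theorem up_inj {s t : ℝ} {y z : E ι} (h : up s y = up t z) : s = t ∧ y = z :=
  ⟨congrArg (fun v : E (Option ι) => v none) h, by
    ext a
    exact congrArg (fun v : E (Option ι) => v (some a)) h⟩

open Db in
/-- the double of an embedded manifold is embedded -/
theorem dblInj (hi : Injective M.x) {K : Set X} (hK : IsCompact K) :
    ∃ (Y : Type) (_ : TopologicalSpace Y) (_ : T2Space Y) (_ : SecondCountableTopology Y)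
      (_ : MeasurableSpace Y) (_ : BorelSpace Y) (_ : CompactSpace Y) (N : Imm d (Option ι) Y)
      (e : OpenPartialHomeomorph X Y) (c : ℝ), Injective N.x ∧ K ⊆ e.source ∧
      ∀ p ∈ e.source, N.x (e p) = up c (M.x p) := by
  classical
  rcases isEmpty_or_nonempty X with hX | ⟨⟨p0⟩⟩
  · exact ⟨X, inferInstance, inferInstance, inferInstance, inferInstance, inferInstance,
      inferInstance, M.pad 0, OpenPartialHomeomorph.refl X, 0, fun p => hX.elim p, subset_univ _,
      fun _ _ => rfl⟩
  obtain ⟨f, L, hf, hL, hfK, hf2, hfL, hreg⟩ := exists_reg M (hK.insert p0)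
  obtain ⟨N0, hx, hsm, htd2, htd1⟩ := M.exists_prodR
  have hh : M.Sm fun p => β (f p) := hf.comp contDiff_β
  have hs : N0.Sm fun q : X × ℝ => q.2 := by
    have h := N0.sm_coord none
    simp only [hx] at h
    exact h
  let G : X × ℝ → ℝ := fun q => q.2 * q.2 - β (f q.1)
  have hG : N0.Sm G := (hs.mul hs).sub (hsm _ hh)
  have hD : ∀ q a, N0.pre.D a G q = 2 * q.2 * (ee a : E (Option ι)) none -
      M.td (fun p => β (f p)) q.1 (down (ee a)) := by
    intro q a
    rw [Imm.D_sub ((hs.mul hs).diffAt q) ((hsm _ hh).diffAt q),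
      Imm.D_mul (hs.diffAt q) (hs.diffAt q), ← htd1, ← htd2 q]
    simp only [Imm.pre]
    ring
  obtain ⟨N, hN⟩ := N0.exists_level hG fun q hq h0 => by
    have h1 : ∀ a, N0.pre.D a G q = 0 := fun a =>
      congrArg (fun T : E (Option ι) →L[ℝ] ℝ => T (ee a)) h0
    have h2 : down (ee none : E (Option ι)) = 0 := by ext a; simp [down]
    have h3 : ∀ a, down (ee (some a) : E (Option ι)) = ee a := fun a => by
      ext b; simp [down]
    have h4 : q.2 = 0 := by simpa [hD, h2] using h1 none
    have h5 : β (f q.1) = 0 := by simpa [G, h4] using hq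
    have h6 : f q.1 = 0 := by
      rcases lt_trichotomy (f q.1) 0 with h | h | h
      · rwa [β_of_le (by linarith)] at h5
      · exact h
      · exact absurd h5 (β_pos h).ne'
    refine hreg q.1 h6 (ContinuousLinearMap.ext fun w => ?_)
    rw [Imm.td_apply]
    refine Finset.sum_eq_zero fun a _ => ?_
    have h7 := h1 (some a)
    have h8 := Imm.D_comp (hf.diffAt q.1) (g := β) (h6 ▸ hasDerivAt_β) a
    rw [hD, h3, h4] at h7
    simp only [Imm.pre] at h8 ⊢
    rw [h8] at h7
    simp only [mul_zero, zero_mul, one_mul, zero_sub, neg_eq_zero] at h7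
    rw [h7, mul_zero]
  have hmem : ∀ p, 1 / 4 < f p → (p, (1 : ℝ)) ∈ {q | G q = 0} := fun p hp => by
    simp [G, β_of_ge hp.le]
  have hcpt : IsCompact {q | G q = 0} := by
    refine (hL.prod (isCompact_Icc (a := (-2 : ℝ)) (b := 2))).of_isClosed_subset
      (isClosed_eq hG.continuous continuous_const) fun q hq => ?_
    have h1 : q.2 * q.2 = β (f q.1) := sub_eq_zero.1 hq
    have h2 := β_le (hf2 q.1)
    refine ⟨hfL _ ?_, by nlinarith, by nlinarith⟩
    by_contra h
    rw [β_of_le (by linarith)] at h1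
    nlinarith
  let e : OpenPartialHomeomorph X {q | G q = 0} :=
    { toFun := fun p => if h : 1 / 4 < f p then ⟨(p, 1), hmem p h⟩ else
        ⟨(p0, 1), hmem p0 (hfK p0 (mem_insert _ _))⟩
      invFun := fun q => q.1.1
      source := {p | 1 / 4 < f p}
      target := {q | 0 < q.1.2 ∧ 1 / 4 < f q.1.1}
      map_source' := fun p (hp : 1 / 4 < f p) => by
        rw [dif_pos hp]
        exact ⟨one_pos, hp⟩
      map_target' := fun q hq => hq.2
      left_inv' := fun p (hp : 1 / 4 < f p) => by rw [dif_pos hp]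
      right_inv' := fun q hq => by
        rw [dif_pos hq.2]
        have h1 : q.1.2 * q.1.2 = β (f q.1.1) := sub_eq_zero.1 q.2
        rw [β_of_ge hq.2.le] at h1
        refine Subtype.ext (Prod.ext rfl ?_)
        have := hq.1
        change 1 = q.1.2
        nlinarith
      open_source := isOpen_lt continuous_const hf.continuous
      open_target := IsOpen.and
        (isOpen_lt continuous_const (continuous_snd.comp continuous_subtype_val))
        (isOpen_lt continuous_const
          (hf.continuous.comp (continuous_fst.comp continuous_subtype_val)))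
      continuousOn_toFun := by
        rw [IsInducing.subtypeVal.continuousOn_iff]
        refine (Continuous.prodMk_left (1 : ℝ)).continuousOn.congr
          fun p (hp : 1 / 4 < f p) => ?_
        simp only [comp_apply]
        rw [dif_pos hp]
      continuousOn_invFun := by fun_prop }
  refine ⟨{q | G q = 0}, inferInstance, inferInstance, inferInstance, borel _,
    @BorelSpace.mk _ _ (borel _) rfl, isCompact_iff_compactSpace.1 hcpt, N, e, 1,
    fun q q' h => ?_, fun p hp => hfK p (mem_insert_of_mem _ hp), fun p (hp : 1 / 4 < f p) => ?_⟩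
  · rw [hN, hN, hx, hx] at h
    exact Subtype.ext (Prod.ext (hi (up_inj h).2) (up_inj h).1)
  rw [hN, hx]
  simp only [e, OpenPartialHomeomorph.coe_mk]
  rw [dif_pos hp]

section Kit

variable {Y : Type} [TopologicalSpace Y] [T2Space Y] [SecondCountableTopology Y]
  [MeasurableSpace Y] [BorelSpace Y] {N : Imm d (Option ι) Y} {e : OpenPartialHomeomorph X Y}
  {c : ℝ} {χ f g : X → ℝ} {p : X}

/-- kit: a cut-off smooth function moves to the closed manifold -/
theorem sm_push (hx : ∀ p ∈ e.source, N.x (e p) = up c (M.x p)) (hχ : M.Tst χ)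
    (hs : tsupport χ ⊆ e.source) (hf : M.Sm f) : N.Sm (push e fun q => χ q * f q) :=
  (Tst.push (M := M.pad c) (N := N) hx ⟨hχ.sm.mul hf, hχ.cs.mul_right⟩
    (tsupport_mul_subset_left.trans hs)).sm

/-- kit: values -/
theorem push_ev (hp : p ∈ e.source) (h1 : ∀ᶠ q in 𝓝 p, χ q = 1) (f : X → ℝ) :
    (fun q => push e (fun q => χ q * f q) (e q)) =ᶠ[𝓝 p] f := by
  filter_upwards [e.open_source.mem_nhds hp, h1] with q hq h
  rw [push_apply _ hq, h, one_mul]

/-- kit: gradients of functions on the closed manifold -/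
theorem gam_pull (hx : ∀ p ∈ e.source, N.x (e p) = up c (M.x p)) (hp : p ∈ e.source)
    (u v : Y → ℝ) : M.pre.gam (fun q => u (e q)) (fun q => v (e q)) p = N.pre.gam u v (e p) := by
  rw [← (loc_of_mem (M := M.pad c) hx hp).gam_iso, M.pad_gam]

/-- kit: gradients of moved functions -/
theorem gam_push (hx : ∀ p ∈ e.source, N.x (e p) = up c (M.x p)) (hp : p ∈ e.source)
    (h1 : ∀ᶠ q in 𝓝 p, χ q = 1) (f g : X → ℝ) :
    N.pre.gam (push e fun q => χ q * f q) (push e fun q => χ q * g q) (e p) = M.pre.gam f g p := by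
  rw [← gam_pull hx hp, gam_congr (push_ev hp h1 f) (push_ev hp h1 g)]

/-- kit: where a moved function does not vanish -/
theorem push_ne {y : Y} (h : push e f y ≠ 0) : ∃ p ∈ e.source, e p = y ∧ push e f y = f p := by
  by_cases hy : y ∈ e.target
  · exact ⟨e.symm y, e.map_target hy, e.right_inv hy, indicator_of_mem hy _⟩
  · exact absurd (indicator_of_notMem hy _) h

/-- kit: smallness comes back from the closed manifold -/
theorem Small.pull {u : Y → ℝ} {Z : Set X} {Z' : Set Y} {D : ℝ} (h : Small u Z' D)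
    (hZ : Z ⊆ e.source) (hm : MapsTo e Z Z') (hf : ∀ p ∈ Z, u (e p) = f p) : Small f Z D :=
  fun c hc h1 p hp q hq => by
    rw [← hf p (hc hp), ← hf q (hc hq)]
    exact h (e '' c) (hm.mono_left hc).image_subset
      (h1.image e (e.continuousOn.mono (hc.trans hZ))) _ (mem_image_of_mem e hp) _
      (mem_image_of_mem e hq)

/-- the weight on the closed manifold -/
theorem exists_weight [CompactSpace Y] (hx : ∀ p ∈ e.source, N.x (e p) = up c (M.x p))
    {V : X → ℝ} (hV : Continuous V) (h : M.Form V) {K : Set X} (hK : IsCompact K)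
    (hKe : K ⊆ e.source) {δ : ℝ} (hδ : 0 < δ) : ∃ (U : Set X) (F : Y → ℝ), IsOpen U ∧ K ⊆ U ∧
      N.Sm F ∧ ∀ p ∈ e.source, p ∈ U → V p - δ ≤ N.pre.EF F (e p) := by
  obtain ⟨W, hW, hWV⟩ := exists_sm_le M hV (half_pos hδ)
  have h1 := formOn_univ.1
    ((formOn_of_form h univ).mono subset_rfl hV hW.continuous fun p _ => (hWV p).2)
  have h' : (M.pad c).Form W := fun z hz => by
    rw [M.pad_gam, M.pad_scal, M.pad_mu]
    exact h1 z ⟨hz.sm, hz.cs⟩
  obtain ⟨χ, hχ, hs, h01, h1⟩ := (M.pad c).exists_bump hK e.open_source hKe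
  have hw := hχ.push (N := N) hx hs
  have hV1 : N.Sm (push e fun p => χ p ^ 2 * W p) := by
    have := (Tst.push (M := M.pad c) (N := N) hx ⟨hχ.sm.mul (hχ.sm.mul hW), hχ.cs.mul_right⟩
      (tsupport_mul_subset_left.trans hs)).sm
    simpa only [← mul_assoc, ← sq] using this
  have hw1 : ∀ y, push e χ y ^ 2 ≤ 1 := fun y => by
    by_cases hy : y ∈ e.target
    · rw [push, indicator_of_mem hy]
      exact pow_le_one₀ (h01 _).1 (h01 _).2
    · simp [push, indicator_of_notMem hy]
  obtain ⟨F, hF, h2⟩ := lin0 (Cl.sm_q0 hw.sm hV1)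
    (fun z hz => Cl.form_Y hw.sm hV1 hz hw1 (Cl.transfer hx h' hχ hs hz)) (δ := δ / 8)
    (by positivity)
  refine ⟨interior {p | χ p = 1}, F, isOpen_interior,
    fun p hp => mem_interior_iff_mem_nhds.2 (eventually_nhdsSet_iff_forall.1 h1 p hp), hF,
    fun p hp hp' => ?_⟩
  have hl := loc_of_mem (M := M.pad c) hx hp
  have hp1 : ∀ᶠ p' in 𝓝 p, χ p' = 1 := mem_interior_iff_mem_nhds.1 hp'
  have e1 : (fun p' => push e χ (e p')) =ᶠ[𝓝 p] fun _ => 1 := by
    filter_upwards [e.open_source.mem_nhds hp, hp1] with p' hp' h1'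
    rw [push_apply _ hp', h1']
  have e2 : (fun p' => push e χ (e p') ^ 2) =ᶠ[𝓝 p] fun _ => 1 :=
    e1.mono fun p' h' => by simp only at h' ⊢; rw [h', one_pow]
  have h3 := h2 (e p)
  rw [Cl.q0, ← hl.gam_iso, ← hl.lap_iso, gam_congr e1 e1, lap_congr e2, lap_const,
    push_apply _ hp, push_apply _ hp, hp1.self_of_nhds] at h3
  simp only [gam_apply, D_const, mul_zero, Finset.sum_const_zero] at h3
  linarith [(hWV p).1]

end Kit

/-- **closing up, embedded** -/
theorem closeInj : CloseInjStmt := by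
  intro d ι _ _ X _ _ _ _ _ M hi V K δ hV h hK hδ
  obtain ⟨Y, _, _, _, _, _, _, N, e, c, hN, hKe, hx⟩ := dblInj hi hK
  obtain ⟨U, F, hU, hKU, hF, h2⟩ := exists_weight hx hV h hK hKe hδ
  exact ⟨Y, _, ‹_›, ‹_›, _, ‹_›, ‹_›, N, e.restrOpen U hU, c, F, hN, fun p hp => ⟨hKe hp, hKU hp⟩,
    fun p hp => hx p hp.1, hF, fun p hp => h2 p hp.1 hp.2⟩

end Crest.Agent.N228.N3

end
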