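import Crest.Agent.N228.N3.Defs
import Crest.Agent.N228.J.Circ

/-!
# Row 228, dimension three: CIRC (helper41)
-/

set_option autoImplicit false
open Set Filter Topology Function Real
open scoped ContDiff

noncomputable section

namespace Crest.Agent.N228.N3
open Crest.Agent.N222

theorem circ : CircStmt := by
  intro d ι _ _ X _ _ _ _ _ _ M F hi hF z ε hz hε
  have hc : M.Sm fun p => (z p : ℂ).re := hz.comp Complex.reCLM.contDiff
  have hs : M.Sm fun p => (z p : ℂ).im := hz.comp Complex.imCLM.contDiff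
  have h1 : ∀ p, (z p : ℂ).re ^ 2 + (z p : ℂ).im ^ 2 = 1 := fun p => by
    rw [← Circle.normSq_coe (z p), Complex.normSq_apply]; ring
  obtain ⟨N, F', ψ, e1, hF', hψ, e2, e3, e4, e5⟩ := J.circ hF hc hs h1 (ε := ε / 64) (by positivity)
  have hL : Later M F N F' ε := ⟨e1, fun p q h => hi (by ext a; rw [← e2, ← e2, h]), hF',
    fun f _ p => e3 f p, fun p => by linarith [e4 p]⟩
  refine ⟨_, inferInstance, inferInstance, N, F', hL, fun q => z q * Circle.exp (2 * π * ψ q), ?_,
    fun O ⟨g, g1, g2⟩ => ⟨fun q => g q - 2 * π * ψ q, g1.sub (by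
      have := hψ.continuous; fun_prop), fun q hq => ?_⟩, fun p => ?_⟩
  · have h2 : M.Sm fun q => Complex.exp (((2 * π * ψ q : ℝ) : ℂ) * Complex.I) :=
      ((Imm.sm_const (2 * π)).mul hψ).comp (g := fun t : ℝ => Complex.exp ((t : ℂ) * Complex.I))
        (Complex.ofRealCLM.contDiff.mul contDiff_const).cexp
    intro p
    simpa only [comp_def, Circle.coe_mul, Circle.coe_exp] using (hz p).mul (h2 p)
  · rw [Circle.exp_sub, ← g2 q hq, mul_div_cancel_right]
  · obtain ⟨th, t1, t2⟩ := J.exists_lift_sm hc hs h1 p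
    have h2 := J.gam_circ (M := N) (R := (2 * π)⁻¹) (hL.sm_iff.2 (t1.add hψ))
      (by simpa only [inv_inv] using (t2.rot hψ.continuous.continuousAt).2)
    have h3 : (fun q => ((z q * Circle.exp (2 * π * ψ q) : Circle) : ℂ).im) =
        J.rotS (fun p => (z p : ℂ).re) (fun p => (z p : ℂ).im) ψ := funext fun q => by
      rw [Circle.coe_mul, Circle.coe_exp, Complex.mul_im, Complex.exp_ofReal_mul_I_im,
        Complex.exp_ofReal_mul_I_re, J.rotS, add_comm]
    have h4 := mul_le_mul (show (2 * π) ^ 2 ≤ 64 by nlinarith [pi_le_four, pi_pos]) (e5 p th t2)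
      (Imm.gam_self_nonneg _ _) (by norm_num)
    rw [inv_inv] at h2
    rw [h3]
    linarith [Imm.gam_self_nonneg (M := N)
      (J.rotC (fun p => (z p : ℂ).re) (fun p => (z p : ℂ).im) ψ) p]

end Crest.Agent.N228.N3

end
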