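import Crest.Agent.N228.N3.Defs

/-!
# Row 228, dimension three: the cover from small components (`CoverStmt` from `SepStmt`)
-/

set_option autoImplicit false
open Set Filter Topology Metric

namespace Crest.Agent.N228.N3

namespace Cv

variable {X : Type} [MetricSpace X]

/-- a small relatively clopen part of `Z` -/
def Good (Z : Set X) (D : ℝ) (B : Set X) : Prop :=
  B ⊆ Z ∧ IsClosed B ∧ IsClosed (Z \ B) ∧ ∀ p ∈ B, ∀ q ∈ B, dist p q ≤ D

lemma step1 [ProperSpace X] (hS : SepStmt) {Z : Set X} {C : ℝ} (hZ : IsClosed Z)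
    (h : ∀ c ⊆ Z, IsPreconnected c → ∀ p ∈ c, ∀ q ∈ c, dist p q ≤ C) {z : X} (hz : z ∈ Z) :
    ∃ B, Good Z (C + 1 / 2) B ∧ z ∈ B := by
  have hA := h _ (connectedComponentIn_subset Z z) isPreconnected_connectedComponentIn
  have hzA := mem_connectedComponentIn hz
  have hc : IsClosed (connectedComponentIn Z z) := closure_subset_iff_isClosed.1
    (isPreconnected_connectedComponentIn.closure.subset_connectedComponentIn (subset_closure hzA)
      (hZ.closure_subset_iff.2 (connectedComponentIn_subset Z z)))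
  obtain ⟨Z1, Z2, c1, c2, hd, hu, s1, s2⟩ := hS X (Z ∩ closedBall z (C + 1))
    (connectedComponentIn Z z)
    ((Z ∩ closedBall z (C + 1)) \ thickening (1 / 4) (connectedComponentIn Z z))
    ((isCompact_closedBall _ _).inter_left hZ) hc
    ((hZ.inter isClosed_closedBall).sdiff isOpen_thickening)
    (fun p hp => ⟨connectedComponentIn_subset Z z hp, (hA p hp z hzA).trans (by linarith)⟩)
    sdiff_subset fun c hcZ hcp ⟨p, hp⟩ ⟨q, hq⟩ => hq.2.2 (self_subset_thickening (by norm_num) _ (by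
      rw [connectedComponentIn_eq hp.2]
      exact hcp.subset_connectedComponentIn hp.1 (hcZ.trans inter_subset_left) hq.1))
  have h1 : ∀ p ∈ Z1, ∃ a ∈ connectedComponentIn Z z, dist p a < 1 / 4 := fun p hp =>
    mem_thickening_iff.1 (by_contra fun hn =>
      disjoint_left.1 hd hp (s2 ⟨hu ▸ subset_union_left hp, hn⟩))
  refine ⟨Z1, ⟨fun p hp => (hu ▸ subset_union_left hp : p ∈ Z ∩ _).1, c1.isClosed, ?_,
    fun p hp q hq => ?_⟩, s1 hzA⟩
  · have : Z \ Z1 = Z2 ∪ Z ∩ (ball z (C + 1))ᶜ := by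
      refine Subset.antisymm (fun p hp => ?_) ?_
      · by_cases hb : p ∈ ball z (C + 1)
        · exact Or.inl ((hu.ge ⟨hp.1, ball_subset_closedBall hb⟩).resolve_left hp.2)
        · exact Or.inr ⟨hp.1, hb⟩
      · rintro p (hp | hp)
        · exact ⟨(hu ▸ subset_union_right hp : p ∈ Z ∩ _).1, disjoint_right.1 hd hp⟩
        · refine ⟨hp.1, fun h' => hp.2 ?_⟩
          obtain ⟨a, ha, hpa⟩ := h1 p h'
          rw [mem_ball]
          linarith [hA a ha z hzA, dist_triangle p a z]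
    rw [this]
    exact c2.isClosed.union (hZ.inter isOpen_ball.isClosed_compl)
  · obtain ⟨a, ha, hpa⟩ := h1 p hp
    obtain ⟨b, hb, hqb⟩ := h1 q hq
    linarith [hA a ha b hb, dist_triangle4 p a b q, dist_comm q b]

lemma step2 [ProperSpace X] {Z : Set X} {D : ℝ} (hZ : IsClosed Z)
    (h : ∀ z ∈ Z, ∃ B, Good Z D B ∧ z ∈ B) :
    ∃ W : ℕ → Set X, (∀ n, Good Z D (W n)) ∧ (∀ z ∈ Z, ∃ n, z ∈ W n) ∧
      (∀ n m, n ≠ m → Disjoint (W n) (W m)) ∧ LocallyFinite W := by
  choose! f hf hz using h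
  obtain ⟨t, ht, hc, hu⟩ := TopologicalSpace.countable_cover_nhdsWithin (f := f) (s := Z)
    fun z h => mem_nhdsWithin.2 ⟨(Z \ f z)ᶜ, (hf z h).2.2.1.isOpen_compl, fun h' => h'.2 (hz z h),
      fun p hp => by_contra fun hn => hp.1 ⟨hp.2, hn⟩⟩
  obtain ⟨B, hB⟩ := ((hc.image f).insert ∅).exists_eq_range (insert_nonempty _ _)
  have hG : ∀ n, Good Z D (B n) := fun n => by
    rcases hB.ge (mem_range_self n) with e | ⟨z, hz, e⟩
    · rw [e]
      exact ⟨empty_subset _, isClosed_empty, by simpa using hZ, by simp⟩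
    · exact e ▸ hf z (ht hz)
  have hcov : ∀ z ∈ Z, ∃ n, z ∈ B n := fun z hz => by
    obtain ⟨y, hy, hzy⟩ := mem_iUnion₂.1 (hu hz)
    obtain ⟨n, hn⟩ := hB.le (Or.inr ⟨y, hy, rfl⟩)
    exact ⟨n, hn ▸ hzy⟩
  have hU : ∀ n, IsClosed (⋃ m ∈ Iio n, B m) := fun n =>
    (finite_lt_nat n).isClosed_biUnion fun m _ => (hG m).2.1
  refine ⟨fun n => B n \ ⋃ m ∈ Iio n, B m, fun n => ⟨sdiff_subset.trans (hG n).1, ?_, ?_,
    fun p hp q hq => (hG n).2.2.2 p hp.1 q hq.1⟩, fun z hz => ?_, fun n m hnm => ?_, fun x => ?_⟩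
  · have : B n \ ⋃ m ∈ Iio n, B m = B n ∩ ⋂ m ∈ Iio n, Z \ B m := by
      ext p
      simp only [Set.mem_sdiff, mem_iUnion, mem_inter_iff, mem_iInter, not_exists]
      exact and_congr_right fun hp => ⟨fun h m hm => ⟨(hG n).1 hp, h m hm⟩, fun h m hm => (h m hm).2⟩
    beta_reduce
    rw [this]
    exact (hG n).2.1.inter (isClosed_biInter fun m _ => (hG m).2.2.1)
  · rw [Set.sdiff_sdiff_right, inter_eq_right.2 (iUnion₂_subset fun m _ => (hG m).1)]
    exact (hG n).2.2.1.union (hU n)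
  · classical
    exact ⟨Nat.find (hcov z hz), Nat.find_spec (hcov z hz), fun h' =>
      let ⟨m, hm, h''⟩ := mem_iUnion₂.1 h'
      Nat.find_min (hcov z hz) hm h''⟩
  · refine disjoint_left.2 fun p hp hq => ?_
    rcases lt_or_gt_of_ne hnm with l | l
    · exact hq.2 (mem_biUnion l hp.1)
    · exact hp.2 (mem_biUnion l hq.1)
  · by_cases hx : x ∈ Z
    · obtain ⟨n, hn⟩ := hcov x hx
      refine ⟨(Z \ B n)ᶜ, (hG n).2.2.1.isOpen_compl.mem_nhds fun h' => h'.2 hn,
        (finite_le_nat n).subset fun m ⟨p, hp, hp'⟩ =>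
          (not_lt.1 fun l : n < m => hp.2 (mem_biUnion l ?_) : m ≤ n)⟩
      exact by_contra fun h' => hp' ⟨(hG m).1 hp.1, h'⟩
    · exact ⟨Zᶜ, hZ.isOpen_compl.mem_nhds hx, finite_empty.subset fun m ⟨p, hp, hp'⟩ =>
        hp' ((hG m).1 hp.1)⟩

lemma step3 [ProperSpace X] {Z : Set X} {D : ℝ} {W : ℕ → Set X} (hG : ∀ n, Good Z D (W n))
    (hc : ∀ z ∈ Z, ∃ n, z ∈ W n) (hd : ∀ n m, n ≠ m → Disjoint (W n) (W m))
    (hl : LocallyFinite W) :
    ∃ (A : ℕ → Set X) (U : Set X), (∀ n, IsClosed (A n)) ∧ LocallyFinite A ∧ IsOpen U ∧ Z ⊆ U ∧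
      (∀ p ∈ U, ∃ n, p ∈ A n) ∧ (∀ n m p, p ∈ A n → p ∈ A m → n = m) ∧
      ∀ n, ∀ p ∈ A n, ∀ q ∈ A n, dist p q ≤ D + 1 / 2 := by
  have c1 : ∀ n, Continuous fun x => infEDist x (W n) + infEDist x (W n) := fun n =>
    continuous_infEDist.add continuous_infEDist
  have h1 : ∀ n p, p ∈ cthickening (1 / 8) (W n) → ∃ a ∈ W n, dist p a < 1 / 4 := fun n p hp =>
    mem_thickening_iff.1 (cthickening_subset_thickening' (by norm_num) (by norm_num) _ hp)
  refine ⟨fun n => cthickening (1 / 8) (W n) ∩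
      {x | infEDist x (W n) + infEDist x (W n) ≤ infEDist x (Z \ W n)},
    ⋃ n, thickening (1 / 8) (W n) ∩ {x | infEDist x (W n) + infEDist x (W n) < infEDist x (Z \ W n)},
    fun n => isClosed_cthickening.inter (isClosed_le (c1 n) continuous_infEDist), fun x => ?_,
    isOpen_iUnion fun n => isOpen_thickening.inter (isOpen_lt (c1 n) continuous_infEDist),
    fun z hz => ?_, fun p hp => ?_, fun n m p hn hm => by_contra fun hnm => ?_,
    fun n p hp q hq => ?_⟩
  · refine ⟨ball x 1, ball_mem_nhds _ one_pos,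
      (hl.finite_nonempty_inter_compact (isCompact_closedBall x 2)).subset
        fun n ⟨p, hp, hp'⟩ => ?_⟩
    obtain ⟨a, ha, hpa⟩ := h1 n p hp.1
    refine ⟨a, ha, ?_⟩
    rw [mem_ball] at hp'
    rw [mem_closedBall]
    linarith [dist_triangle_left a x p]
  · obtain ⟨n, hn⟩ := hc z hz
    refine mem_iUnion.2 ⟨n, self_subset_thickening (by norm_num) _ hn, ?_⟩
    rw [mem_ofPred_eq, infEDist_zero_of_mem hn, add_zero, infEDist_pos_iff_notMem_closure,
      (hG n).2.2.1.closure_eq]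
    exact fun h => h.2 hn
  · obtain ⟨n, h, h'⟩ := mem_iUnion.1 hp
    exact ⟨n, thickening_subset_cthickening _ _ h, mem_ofPred.2 (mem_ofPred.1 h').le⟩
  · have key : ∀ n m, n ≠ m → infEDist p (Z \ W n) ≤ infEDist p (W m) := fun n m h =>
      infEDist_anti fun a ha => ⟨(hG m).1 ha, disjoint_right.1 (hd n m h) ha⟩
    have e1 := le_trans hn.2 (key n m hnm)
    have e2 := le_trans hm.2 (key m n (Ne.symm hnm))
    have f1 := ne_top_of_le_ne_top ENNReal.ofReal_ne_top (mem_cthickening_iff.1 hn.1)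
    have f2 := ne_top_of_le_ne_top ENNReal.ofReal_ne_top (mem_cthickening_iff.1 hm.1)
    have z1 : infEDist p (W n) = 0 ∧ infEDist p (W m) = 0 := by
      lift infEDist p (W n) to NNReal using f1 with a
      lift infEDist p (W m) to NNReal using f2 with b
      norm_cast at e1 e2 ⊢
      have e3 : (a : ℝ) + a ≤ b := by exact_mod_cast e1
      have e4 : (b : ℝ) + b ≤ a := by exact_mod_cast e2
      exact ⟨NNReal.coe_eq_zero.1 (by linarith [a.2, b.2]),
        NNReal.coe_eq_zero.1 (by linarith [a.2, b.2])⟩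
    exact disjoint_left.1 (hd n m hnm) ((mem_iff_infEDist_zero_of_closed (hG n).2.1).2 z1.1)
      ((mem_iff_infEDist_zero_of_closed (hG m).2.1).2 z1.2)
  · obtain ⟨a, ha, hpa⟩ := h1 n p hp.1
    obtain ⟨b, hb, hqb⟩ := h1 n q hq.1
    linarith [(hG n).2.2.2 a ha b hb, dist_triangle4 p a b q, dist_comm q b]

end Cv

theorem cover (hS : SepStmt) : CoverStmt := by
  intro X _ _ _ Z C hZ h1 h2
  obtain ⟨W, w1, w2, w3, w4⟩ := Cv.step2 hZ fun z hz => Cv.step1 hS hZ h1 hz
  obtain ⟨A, U, a1, a2, u1, u2, a3, a4, a5⟩ := Cv.step3 w1 w2 w3 w4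
  have hn : ∀ x, x ∉ Z → connectedComponentIn Zᶜ x ∈ 𝓝 x := fun x hx =>
    connectedComponentIn_mem_nhds (hZ.isOpen_compl.mem_nhds hx)
  refine ⟨ℕ ⊕ Set X, Sum.elim A fun P => {x | x ∉ U ∧ connectedComponentIn Zᶜ x = P}, ?_,
    a2.sumElim fun x => ?_, fun p => ?_, fun p s hs => ?_, ?_⟩
  · rintro (n | P)
    · exact a1 n
    · refine isOpen_compl_iff.1 (isOpen_iff_mem_nhds.2 fun x hx => ?_)
      by_cases hU : x ∈ U
      · exact mem_of_superset (u1.mem_nhds hU) fun y hy h => h.1 hy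
      · exact mem_of_superset (hn x fun h => hU (u2 h)) fun y hy h =>
          hx ⟨hU, (connectedComponentIn_eq hy).trans h.2⟩
  · by_cases hU : x ∈ U
    · exact ⟨U, u1.mem_nhds hU, finite_empty.subset fun P ⟨y, hy, hy'⟩ => hy.1 hy'⟩
    · exact ⟨_, hn x fun h => hU (u2 h), (finite_singleton (connectedComponentIn Zᶜ x)).subset
        fun P ⟨y, hy, hy'⟩ => hy.2.symm.trans (connectedComponentIn_eq hy').symm⟩
  · by_cases hU : p ∈ U
    · exact (a3 p hU).elim fun n h => ⟨.inl n, h⟩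
    · exact ⟨.inr _, hU, rfl⟩
  · refine (Finset.card_le_card_of_injOn (t := Finset.univ) Sum.isLeft
      (fun _ _ => Finset.mem_univ _) ?_).trans (by simp)
    rintro (n | P) hi (m | Q) hj e
    · rw [a4 n m p (hs _ hi) (hs _ hj)]
    · simp at e
    · simp at e
    · rw [← (hs _ hi).2, ← (hs _ hj).2]
  · rintro (n | P) p hp q hq
    · exact (a5 n p hp q hq).trans (by linarith)
    · refine (h2 _ (connectedComponentIn_subset Zᶜ p) isPreconnected_connectedComponentIn p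
        (mem_connectedComponentIn fun h => hp.1 (u2 h)) q ?_).trans (by linarith)
      rw [hp.2, ← hq.2]
      exact mem_connectedComponentIn fun h => hq.1 (u2 h)

end Crest.Agent.N228.N3
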