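import Crest.Agent.N228.N3.Defs
import Crest.Agent.N222.F.Graph

/-!
# Row 228, dimension three: CUT and CUTS (leaf N3-Cuts)
-/

set_option autoImplicit false
open MeasureTheory Set Filter Topology Function
open scoped ContDiff

noncomputable section

namespace Crest.Agent.N228.N3
open Crest.Agent.N222

namespace Cu

variable {Y : Type} [TopologicalSpace Y]

theorem lifts_slit {z : Y → Circle} (hz : Continuous z) (w : Circle) :
    Lifts z {p | ((z p / w : Circle) : ℂ) ∈ Complex.slitPlane} := by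
  refine ⟨fun p => Complex.arg (z p / w : Circle) + Complex.arg w, fun p hp => ?_, fun p _ => ?_⟩
  · have h : Continuous fun p => ((z p / w : Circle) : ℂ) :=
      continuous_subtype_val.comp (hz.div_const w)
    exact (((Complex.continuousAt_arg hp).comp_of_eq h.continuousAt rfl).add
      continuousAt_const).continuousWithinAt
  · rw [Circle.exp_add, Circle.exp_arg, Circle.exp_arg, div_mul_cancel]

theorem lifts_union {z : Y → Circle} {u : Y → ℝ} (hu : Continuous u) (h1 : Lifts z {p | 0 < u p})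
    (h2 : Lifts z {p | u p < 0}) : Lifts z {p | u p ≠ 0} := by
  obtain ⟨g1, c1, e1⟩ := h1
  obtain ⟨g2, c2, e2⟩ := h2
  have o1 : IsOpen {p | 0 < u p} := isOpen_lt continuous_const hu
  have o2 : IsOpen {p | u p < 0} := isOpen_lt hu continuous_const
  refine ⟨fun p => if 0 < u p then g1 p else g2 p, fun p hp => ?_, fun p hp => ?_⟩
  · refine ContinuousAt.continuousWithinAt ?_
    rcases lt_or_gt_of_ne (show u p ≠ 0 from hp) with h | h
    · refine (c2.continuousAt (o2.mem_nhds h)).congr ?_
      filter_upwards [o2.mem_nhds h] with q hq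
      exact (if_neg (not_lt.2 (le_of_lt hq))).symm
    · refine (c1.continuousAt (o1.mem_nhds h)).congr ?_
      filter_upwards [o1.mem_nhds h] with q hq
      exact (if_pos hq).symm
  · by_cases h : 0 < u p
    · simp only [if_pos h]
      exact e1 p h
    · simp only [if_neg h]
      exact e2 p (lt_of_le_of_ne (not_lt.1 h) hp)

theorem lifts_of_im {z : Y → Circle} (hz : Continuous z) {u : Y → ℝ} (hu : Continuous u)
    (h1 : ∀ p, 0 < u p → -1 < (z p : ℂ).im) (h2 : ∀ p, u p < 0 → (z p : ℂ).im < 1) :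
    Lifts z {p | u p ≠ 0} := by
  have hn : ∀ p, (z p : ℂ).re ^ 2 + (z p : ℂ).im ^ 2 = 1 := fun p => by
    rw [← Circle.normSq_coe (z p), Complex.normSq_apply]; ring
  obtain ⟨w, hw⟩ : ∃ w : Circle, (w : ℂ) = Complex.I :=
    ⟨⟨Complex.I, mem_sphere_zero_iff_norm.2 Complex.norm_I⟩, rfl⟩
  refine lifts_union hu ((lifts_slit hz w).mono fun p hp => ?_)
    ((lifts_slit hz w⁻¹).mono fun p hp => ?_)
  · have h := h1 p hp
    have h' := hn p
    simp only [mem_ofPred_eq, Circle.coe_div, hw, Complex.div_I, Complex.mem_slitPlane_iff,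
      Complex.neg_re, Complex.neg_im, Complex.mul_I_re, Complex.mul_I_im, neg_neg]
    by_contra hc
    push Not at hc
    have h0 : (z p : ℂ).re = 0 := by linarith [hc.2]
    rw [h0] at h'
    nlinarith [hc.1]
  · have h := h2 p hp
    have h' := hn p
    simp only [mem_ofPred_eq, div_inv_eq_mul, Circle.coe_mul, hw, Complex.mem_slitPlane_iff,
      Complex.mul_I_re, Complex.mul_I_im]
    by_contra hc
    push Not at hc
    rw [hc.2] at h'
    nlinarith [hc.1]

end Cu

open Cu

theorem cut (hC : CircStmt) (hN : NeckStmt) : CutStmt := by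
  intro d ι _ _ X _ _ _ _ _ _ M F hi hF hd z ψ T ε hz hε hψ hE
  obtain ⟨κ, _, _, N, F1, hL, z', hz', hl, hg⟩ := hC d ι X M F hi hF z (ε / 100) hz (by positivity)
  have hs : N.Sm fun q => (z' q : ℂ).im := hL.sm_iff.2 (hz'.comp Complex.imCLM.contDiff)
  have ha : (2 * √(ε / 100)) ^ 2 = 4 * (ε / 100) := by
    rw [mul_pow, Real.sq_sqrt (by positivity)]
    norm_num
  have hφ : ∀ p, N.pre.gam (fun q => 2 * (z' q : ℂ).im) (fun q => 2 * (z' q : ℂ).im) p ≤
      (2 * √(ε / 100)) ^ 2 := fun p => by
    have h := hg p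
    have e : N.pre.gam (fun q => 2 * (z' q : ℂ).im) (fun q => 2 * (z' q : ℂ).im) p =
        4 * N.pre.gam (fun q => (z' q : ℂ).im) (fun q => (z' q : ℂ).im) p := by
      simp only [Imm.gam_apply, Imm.D_const_mul 2 (hs.diffAt p), Finset.mul_sum]
      exact Finset.sum_congr rfl fun _ _ => by ring
    rw [ha, e]
    linarith
  obtain ⟨u, F', lo, hi', hu, hF', -, -, e1, -, e2, e3, -, -, e4⟩ :=
    hN d κ X N F1 hL.inj (hL.sm_iff.2 hL.sm) hd (fun q => 2 * (z' q : ℂ).im) ψ (2 * √(ε / 100))
      (max T 0) (ε / 2) ((Imm.sm_const 2).mul hs) (by positivity) (by positivity) (hL.lip hψ)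
      fun p hp => ⟨hφ p, by linarith [hE p hp, hL.E p]⟩
  refine ⟨Option κ, inferInstance, inferInstance, N.graph u hu, F', ⟨hL.ch,
    Imm.gx_injective hL.inj u, hL.sm_iff.1 hF', fun f hf p => ?_, fun p => ?_⟩, u,
    ⟨(Imm.graph_sm hu).2 hu, fun p _ => ?_⟩, hl _ ?_,
    (hL.small e4).mono (inter_subset_inter_left _ fun p (hp : |u p| ≤ T) =>
      show |u p| ≤ max T 0 from hp.trans (le_max_left _ _))⟩
  · rw [Imm.graph_pre]
    exact (N.gS_gam_le u f p).trans (hL.gam f hf p)
  · rw [Imm.graph_pre]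
    linarith [e1 p (hφ p), hL.E p]
  · rw [Imm.graph_pre, Imm.gS_gam_u]
    linarith [sq_nonneg (N.vv u p)]
  · have h0 := le_max_right T 0
    refine lifts_of_im (continuous_induced_rng.2 hz'.continuous) hu.continuous
      (fun p hp => ?_) fun p hp => ?_
    · by_contra hc
      linarith [e3 p (by linarith)]
    · by_contra hc
      linarith [e2 p (by linarith)]

theorem cuts (hC : CutStmt) (hCL : CLStmt) (hS : SminStmt) : CutsStmt := by
  intro d ι _ _ X _ _ _ _ _ _ M F hi hF hd zs ψ
  induction zs generalizing ι M F with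
  | nil =>
    intro c ε _ hε _ _
    refine ⟨ι, inferInstance, inferInstance, M, F, fun _ => c + 1,
      ⟨rfl, hi, hF, fun _ _ _ => le_rfl, fun p => by linarith⟩,
      ⟨Imm.sm_const _, fun p _ => by simp [Imm.gam_apply, Imm.D_const]⟩, by simp,
      fun B _ _ hB => hB.mono ?_⟩
    rintro p (h | ⟨h, -⟩)
    · exact h
    · exact absurd h (not_le.2 (lt_add_one c))
  | cons z zs ih =>
    intro c ε hz hε hψ hE
    obtain ⟨c0, h0, h1⟩ : ∃ c0 : ℝ, 0 ≤ c0 ∧ c + 2 ≤ c0 :=
      ⟨max (c + 2) 0, le_max_right _ _, le_max_left _ _⟩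
    obtain ⟨κ, _, _, N1, F1, L1, u, hu, lu, su⟩ := hC d ι X M F hi hF hd z ψ (c0 + 13) (ε / 2)
      (hz z List.mem_cons_self) (by positivity) hψ fun p hp => by linarith [hE p hp]
    obtain ⟨μ, _, _, N, F', m', L2, hm', lm', sm'⟩ := ih κ N1 F1 L1.inj (L1.sm_iff.2 L1.sm) (c + 1)
      (ε / 2) (fun w hw => L1.sm_iff.2 (hz w (List.mem_cons_of_mem _ hw))) (by positivity)
      (L1.lip hψ) fun p hp => by linarith [hE p hp, L1.E p]
    have hu' := L2.lip hu
    obtain ⟨a, sa, ha⟩ := (hS d μ X N).2 u hu'.1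
    obtain ⟨m, sm, hm⟩ := (hS d μ X N).1 a m' sa hm'.1
    have cu := hu.1.continuous
    have cψ : IsClosed {p | 12 ≤ ψ p} := isClosed_le continuous_const hψ.1.continuous
    refine ⟨μ, inferInstance, inferInstance, N, F', m, add_halves ε ▸ L1.trans L2,
      ⟨sm, fun p hp => (hm p).2.2.2 ((ha p).2.2.trans (hu'.2 p hp)) (hm'.2 p hp)⟩, fun w hw => ?_,
      fun B hB hBψ sB f hf => ?_⟩
    · rcases List.mem_cons.1 hw with rfl | hw
      · exact lu.mono fun p hp => abs_pos.1 (lt_of_lt_of_le hp ((hm p).1.trans (ha p).1))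
      · exact (lm' w hw).mono fun p hp => lt_of_lt_of_le hp (hm p).2.1
    · have sB' := sm' B hB hBψ sB
      set B' := B ∪ {p | m' p ≤ c + 1} ∩ {p | 12 ≤ ψ p} with hB'
      have cB' : IsClosed B' :=
        hB.union ((isClosed_le hm'.1.continuous continuous_const).inter cψ)
      have hB'ψ : B' ⊆ {p | 12 ≤ ψ p} := union_subset hBψ inter_subset_right
      have s1 : Small u B' 11 := sB' u (hu.mono (subset_univ _))
      refine Small.mono (Z := B' ∪ {p | |u p| ≤ c0} ∩ {p | 12 ≤ ψ p})
        (small_of_closed (cB'.union ((isClosed_le cu.abs continuous_const).inter cψ))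
          fun C hC cC pC => ?_) ?_ le_rfl
      · have out : ∀ p ∈ C, c0 < |u p| → p ∈ B' := fun p hp h =>
          (hC hp).resolve_right fun h' => absurd h'.1 (not_le.2 h)
        by_cases hx : ∃ p ∈ C, |u p| ≤ c0
        · obtain ⟨p0, hp0, hp1⟩ := hx
          refine su f hf C (fun q hq => ⟨?_, (hC hq).elim (fun h => hB'ψ h) fun h => h.2⟩) pC
          have key : ∀ v : X → ℝ, Continuous v → (∀ p, |v p| = |u p|) →
              (∀ c' ⊆ B', IsPreconnected c' → ∀ p ∈ c', ∀ q ∈ c', v p - v q ≤ 11) →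
              v q ≤ c0 + 13 := fun v cv e sv => by
            by_contra hc
            obtain ⟨c', h2, h3, p, hp, p', hp', h4, h5⟩ := hCL X C v (c0 + 1) (c0 + 13) pC cv
              (by linarith) (cC.inter ((isClosed_le continuous_const cv).inter
                (isClosed_le cv continuous_const))).isCompact
              ⟨p0, hp0, by linarith [le_abs_self (v p0), e p0]⟩ ⟨q, hq, (not_le.1 hc).le⟩
            have := sv c' (fun r hr => out r (h2 hr).1
              (by linarith [le_abs_self (v r), e r, (h2 hr).2.1])) h3 p' hp' p hp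
            linarith
          exact abs_le.2 ⟨neg_le.1 (key (fun p => -u p) cu.neg (fun p => abs_neg _)
            fun c' h2 h3 p hp p' hp' => by linarith [s1 c' h2 h3 p' hp' p hp]),
            key u cu (fun _ => rfl) s1⟩
        · push Not at hx
          exact L1.small sB' f hf C (fun p hp => out p hp (hx p hp)) pC
      · rintro p (h | ⟨h, h'⟩)
        · exact Or.inl (Or.inl h)
        · have h2 : m p ≤ c := h
          rcases le_total (a p) (m' p) with h3 | h3
          · have h4 := (hm p).2.2.1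
            rw [min_eq_left h3] at h4
            exact Or.inr ⟨show |u p| ≤ c0 by linarith [(ha p).2.1], h'⟩
          · have h4 := (hm p).2.2.1
            rw [min_eq_right h3] at h4
            exact Or.inl (Or.inr ⟨show m' p ≤ c + 1 by linarith, h'⟩)

end Crest.Agent.N228.N3

end
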