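import Crest.Agent.N228.N3.Defs
import Crest.Agent.N228.O.App2

/-!
# Row 228, dimension three (helper55): `dist : DistStmt`
-/

set_option autoImplicit false
set_option linter.unusedSectionVars false
open Set Filter Topology Function

noncomputable section

namespace Crest.Agent.N228.N3
open Crest.Agent.N222 Crest.Agent.N228.Ln

variable {n : ℕ} {ι : Type} [Fintype ι] {X : Type} [TopologicalSpace X] {M : Imm n ι X}

/-- a gradient bound along a curve of speed at most one -/
theorem curve_lip {γ : ℝ → X} (hγ : Continuous γ) {T c : ℝ} (hT : 0 ≤ T) (hc : 0 ≤ c)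
    (h : ∀ s t, 0 ≤ s → s ≤ t → t ≤ T → ‖M.x (γ s) - M.x (γ t)‖ ≤ t - s) {f : X → ℝ} (hf : M.Sm f)
    (hd : ∀ t ∈ Icc 0 T, ‖M.td f (γ t)‖ ≤ c) : |f (γ 0) - f (γ T)| ≤ c * T := by
  refine le_of_forall_gt_mul fun c' hc' => ?_
  have h3 : Continuous fun t => |f (γ 0) - f (γ t)| :=
    (continuous_const.sub (hf.continuous.comp hγ)).abs
  have h4 : Icc 0 T ⊆ {t | |f (γ 0) - f (γ t)| ≤ c' * t} := by
    refine IsClosed.Icc_subset_of_forall_mem_nhdsWithin
      ((isClosed_le h3 (by fun_prop)).inter isClosed_Icc) (by simp) fun t ht => ?_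
    filter_upwards [mem_nhdsWithin_of_mem_nhds (hγ.continuousAt.eventually (lip_pt (hf.diffAt _)
      ((hd t (Ico_subset_Icc_self ht.2)).trans_lt hc'))), Ioo_mem_nhdsGT ht.2.2] with s hs hs'
    have a1 := mul_le_mul_of_nonneg_left (h t s ht.2.1 hs'.1.le hs'.2.le) (hc.trans hc'.le)
    have a2 : |f (γ 0) - f (γ t)| ≤ c' * t := ht.1
    rw [norm_sub_rev, norm_sub_rev (M.x _), Real.norm_eq_abs] at hs
    change |_| ≤ _
    linarith [abs_sub_le (f (γ 0)) (f (γ t)) (f (γ s))]
  exact h4 ⟨hT, le_rfl⟩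

theorem jn_of_comp (M : Imm n ι X) {p q : X} (h : q ∈ connectedComponent p) : ∃ T, Jn M p q T := by
  have h1 : IsClopen {q | ∃ T, Jn M p q T} := by
    refine ⟨⟨isOpen_iff_mem_nhds.2 fun q hq => ?_⟩, isOpen_iff_mem_nhds.2 fun q hq => ?_⟩
    · obtain ⟨U, hU, H⟩ := loc_jn M q one_pos
      filter_upwards [hU] with q' hq' ⟨T, h⟩
      exact hq ⟨_, h.trans (H q' hq' q (mem_of_mem_nhds hU))⟩
    · obtain ⟨U, hU, H⟩ := loc_jn M q one_pos
      obtain ⟨T, h⟩ := hq
      filter_upwards [hU] with q' hq'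
      exact ⟨_, h.trans (H q (mem_of_mem_nhds hU) q' hq')⟩
  exact h1.connectedComponent_subset ⟨0, Jn.refl p⟩ h

/-- a base point in every component -/
def base (p : X) : X := surjInv ConnectedComponents.surjective_coe (p : ConnectedComponents X)

theorem base_mem (p : X) : base p ∈ connectedComponent p :=
  ConnectedComponents.coe_eq_coe'.1 (surjInv_eq _ _)

theorem base_eq {c : Set X} (hc : IsPreconnected c) {p q : X} (hp : p ∈ c) (hq : q ∈ c) :
    base p = base q := by
  rw [base, ConnectedComponents.coe_eq_coe'.2 (hc.subset_connectedComponent hq hp)]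
  rfl

theorem base_jn {p q : X} {T : ℝ} (h : Jn M p q T) : base p = base q := by
  obtain ⟨-, γ, hγ, rfl, rfl, -⟩ := h
  exact base_eq (isPreconnected_range hγ) ⟨_, rfl⟩ ⟨_, rfl⟩

theorem ld_base_le {p q : X} {T : ℝ} (h : Jn M p q T) :
    ld M p (base p) ≤ ld M q (base q) + T := by
  rw [← sub_le_iff_le_add]
  refine le_csInf (jn_of_comp M (base_mem q)) fun T' hT' => ?_
  have := (h.trans hT').ld_le
  rw [base_jn h]
  linarith

theorem dist : DistStmt := by
  classical
  intro d ι _ _ X _ _ _ _ _ M O K hO hK hKO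
  set N := M.opens O hO
  set ρ : X → ℝ := fun p => if h : p ∈ O then ld N ⟨p, h⟩ (base ⟨p, h⟩) else 0 with hρ
  have e1 : ∀ p : O, ρ p = ld N p (base p) := fun p => dif_pos p.2
  obtain ⟨r, h1, h2⟩ := glue_on (M := M) (f := ρ) (c := fun _ => 1 + 1 / 10) (η := fun _ => 1 / 4) K
    continuous_const (fun _ => by norm_num) fun p => by
      by_cases hp : p ∈ K
      · obtain ⟨U, hU, H⟩ := loc_jn N ⟨p, hKO hp⟩ (ε := 1 / 10) (by norm_num)
        refine ⟨_, hO.isOpenEmbedding_subtypeVal.isOpenMap.image_mem_nhds hU, fun δ hδ => ?_⟩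
        obtain ⟨g, a1, a2, a3⟩ := app_chord (M := M) (f := ρ) (N := Subtype.val '' U)
          (K := 1 + 1 / 10) (by norm_num) (by
            rintro _ ⟨q, hq, rfl⟩ _ ⟨q', hq', rfl⟩
            have b1 := ld_base_le (H q hq q' hq')
            have b2 := ld_base_le (H q hq q' hq').symm
            rw [e1, e1, abs_le]
            exact ⟨by change -((1 + 1 / 10) * ‖N.x q - N.x q'‖) ≤ _; linarith,
              by change _ ≤ (1 + 1 / 10) * ‖N.x q - N.x q'‖; linarith⟩) hδ
        exact ⟨g, a1, fun q hq _ => ⟨a2 q hq, a3 q⟩⟩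
      · exact ⟨Kᶜ, hK.isClosed.isOpen_compl.mem_nhds hp, fun _ _ =>
          ⟨fun _ => 0, Imm.sm_const 0, fun q hq hq' => absurd hq' hq⟩⟩
  refine ⟨r, fun p => if h : p ∈ O then (base (⟨p, h⟩ : O)).1 else p, h1, fun p hp => ?_,
    fun c hc hcc p hp q hq => ?_, fun x hx => ?_⟩
  · exact ((norm_td_le (by norm_num)).1 (h2 p hp).2).trans (by norm_num)
  · simp only [dif_pos (hc hp), dif_pos (hc hq)]
    refine congrArg Subtype.val (base_eq (c := Subtype.val ⁻¹' c) (p := ⟨p, hc hp⟩)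
      (q := ⟨q, hc hq⟩) ?_ hp hq)
    rwa [← IsInducing.subtypeVal.isPreconnected_image, Subtype.image_preimage_coe,
      inter_eq_right.2 hc]
  · set y : O := ⟨x, hKO hx⟩
    obtain ⟨T, ⟨hT, γ, hγ, g0, g1, H⟩, hT'⟩ := exists_lt_of_csInf_lt (jn_of_comp N (base_mem y))
      (lt_add_of_pos_right (ld N y (base y)) (show (0 : ℝ) < 1 / 4 by norm_num))
    refine ⟨fun s => γ (T * s), continuous_subtype_val.comp (hγ.comp (by fun_prop)), by simp [g0, y],
      by simp only [mul_one, g1, dif_pos (hKO hx), y], fun s hs => ⟨(γ _).2, fun hs' f hf => ?_⟩⟩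
    have a0 := mul_nonneg hT hs.1
    have a1 := mul_le_of_le_one_right hT hs.2
    have a2 : |f (γ 0) - f (γ (T * s))| ≤ 1 * (T * s) :=
      curve_lip (M := M) (γ := fun t => γ t) (continuous_subtype_val.comp hγ) a0 zero_le_one
        (fun a b ha hab hb => H a b ha hab (hb.trans a1)) hf.1 fun t _ =>
          (norm_td_le zero_le_one).2 ((hf.2 _ (γ t).2).trans_eq (one_pow 2).symm)
    have a3 : Jn N (γ (T * s)) (base y) (T - T * s) :=
      ⟨by linarith, fun u => γ (T * s + u), hγ.comp (by fun_prop), by simp, by simpa,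
        fun a b ha hab hb => (H _ _ (by linarith) (by linarith) (by linarith)).trans (by linarith)⟩
    have a4 : base (γ (T * s)) = base y := by
      rw [← g0]; exact base_eq (isPreconnected_range hγ) ⟨_, rfl⟩ ⟨_, rfl⟩
    have a5 := a3.ld_le
    rw [← a4, ← e1] at a5
    have a6 := abs_le.1 (h2 x hx).1
    have a7 := abs_le.1 (h2 _ hs').1
    rw [g0] at a2
    rw [← e1] at hT'
    change |f x - _| ≤ _ at a2
    change T < ρ x + _ at hT'
    linarith [a6.1, a7.2]

end Crest.Agent.N228.N3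

end
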