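import Crest.Agent.N228.N3.Defs
import Crest.Agent.N222.F.Bump

/-!
# Row 228, dimension three: circle maps are finitely generated modulo lifts (helper33)
-/

set_option autoImplicit false
open Set Filter Topology Function

noncomputable section

namespace Crest.Agent.N228.N3
open Crest.Agent.N222

namespace FGa

variable {X : Type} [TopologicalSpace X]

/-- circle maps lift on chart balls -/
theorem loc_lift {d : ℕ} (e : OpenPartialHomeomorph X (E (Fin d))) {p : X} (hp : p ∈ e.source) :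
    ∃ U : Set X, IsOpen U ∧ p ∈ U ∧ ∀ z : X → Circle, Continuous z → Lifts z U := by
  classical
  obtain ⟨r, hr, hb⟩ := Metric.isOpen_iff.1 e.open_target _ (e.map_source hp)
  refine ⟨e.source ∩ e ⁻¹' Metric.ball (e p) r, e.isOpen_inter_preimage Metric.isOpen_ball,
    ⟨hp, Metric.mem_ball_self hr⟩, fun z hz => ?_⟩
  have : ContractibleSpace (Metric.ball (e p) r) :=
    (convex_ball _ _).contractibleSpace ⟨_, Metric.mem_ball_self hr⟩
  have : LocallyPathConnectedSpace (Metric.ball (e p) r) :=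
    Metric.isOpen_ball.locallyPathConnectedSpace
  have hc : Continuous fun y : Metric.ball (e p) r => z (e.symm y) :=
    hz.comp (e.continuousOn_symm.mono hb).domRestrict
  obtain ⟨t, ht⟩ := Circle.exp_surjective (z (e.symm (e p)))
  obtain ⟨F, ⟨-, hF⟩, -⟩ := Circle.isCoveringMap_exp.existsUnique_continuousMap_lifts
    (⟨_, hc⟩ : C(Metric.ball (e p) r, Circle)) ⟨e p, Metric.mem_ball_self hr⟩ t ht
  refine ⟨fun q => if h : e q ∈ Metric.ball (e p) r then F ⟨e q, h⟩ else 0, ?_, fun q hq => ?_⟩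
  · rw [continuousOn_iff_continuous_domRestrict]
    have h1 : Continuous fun q : ↥(e.source ∩ e ⁻¹' Metric.ball (e p) r) =>
        F ⟨e q, q.2.2⟩ :=
      F.continuous.comp ((e.continuousOn.mono inter_subset_left).domRestrict.subtype_mk _)
    refine h1.congr fun q => ?_
    have h2 : e q ∈ Metric.ball (e p) r := q.2.2
    simp only [domRestrict_apply, dif_pos h2]
  · have h2 : e q ∈ Metric.ball (e p) r := hq.2
    have h3 := congrFun hF ⟨e q, h2⟩
    simp only [comp_apply, ContinuousMap.coe_mk, e.left_inv hq.1] at h3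
    simp only [dif_pos h2, h3]

/-- a finite shrinking and finitely many test points for the overlaps -/
theorem data [T2Space X] [CompactSpace X] [LocallyConnectedSpace X] (U : X → Set X)
    (hU : ∀ p, IsOpen (U p)) (hm : ∀ p, p ∈ U p) :
    ∃ (V : X → Set X) (s : Set X) (T : Set (X × X × X)), T.Finite ∧ (∀ a, IsOpen (V a)) ∧
      (∀ a, V a ⊆ U a) ∧ (∀ p, ∃ a ∈ s, p ∈ V a) ∧ (∀ τ ∈ T, τ.2.2 ∈ U τ.1 ∧ τ.2.2 ∈ U τ.2.1) ∧
      ∀ a ∈ s, ∀ b ∈ s, ∀ p ∈ V a, p ∈ V b → ∃ c ⊆ U a ∩ U b, IsPreconnected c ∧ p ∈ c ∧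
        ∃ q ∈ c, (a, b, q) ∈ T := by
  choose K hK hKp hKU using fun p => exists_compact_subset (hU p) (hm p)
  obtain ⟨s, hs⟩ := isCompact_univ.elim_finite_subcover (fun p => interior (K p))
    (fun _ => isOpen_interior) fun p _ => mem_iUnion.2 ⟨p, hKp p⟩
  have key : ∀ a b : X, ∃ t : Set X, t.Finite ∧ t ⊆ U a ∩ U b ∧ ∀ p ∈ K a ∩ K b,
      ∃ c ⊆ U a ∩ U b, IsPreconnected c ∧ p ∈ c ∧ ∃ q ∈ c, q ∈ t := by
    intro a b
    have h1 : ∀ q ∈ K a ∩ K b, ∃ c ∈ 𝓝 q, IsPreconnected c ∧ c ⊆ U a ∩ U b := fun q hq =>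
      locallyConnectedSpace_iff_connected_subsets.1 inferInstance q _
        (((hU a).inter (hU b)).mem_nhds ⟨hKU a hq.1, hKU b hq.2⟩)
    choose! c hc1 hc2 hc3 using h1
    obtain ⟨t, ht1, ht2⟩ := ((hK a).inter (hK b)).elim_nhds_subcover c hc1
    refine ⟨t, t.finite_toSet, fun q hq => ⟨hKU a (ht1 q hq).1, hKU b (ht1 q hq).2⟩,
      fun p hp => ?_⟩
    obtain ⟨q, hq, hpq⟩ := mem_iUnion₂.1 (ht2 hp)
    exact ⟨c q, hc3 q (ht1 q hq), hc2 q (ht1 q hq), hpq, q, mem_of_mem_nhds (hc1 q (ht1 q hq)), hq⟩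
  choose t ht1 ht2 ht3 using key
  refine ⟨fun p => interior (K p), s, ⋃ a ∈ (s : Set X), ⋃ b ∈ (s : Set X),
    (fun q => (a, b, q)) '' t a b, ?_, fun _ => isOpen_interior,
    fun a => interior_subset.trans (hKU a), fun p => ?_, fun τ hτ => ?_,
    fun a ha b hb p hpa hpb => ?_⟩
  · exact s.finite_toSet.biUnion fun a _ => s.finite_toSet.biUnion fun b _ => (ht1 a b).image _
  · obtain ⟨a, ha, h⟩ := mem_iUnion₂.1 (hs (mem_univ p))
    exact ⟨a, ha, h⟩
  · obtain ⟨a, -, h⟩ := mem_iUnion₂.1 hτ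
    obtain ⟨b, -, q, hq, rfl⟩ := mem_iUnion₂.1 h
    exact ht2 a b hq
  · obtain ⟨c, h1, h2, h3, q, h4, h5⟩ := ht3 a b p ⟨interior_subset hpa, interior_subset hpb⟩
    exact ⟨c, h1, h2, h3, q, h4, mem_iUnion₂.2 ⟨a, ha, mem_iUnion₂.2 ⟨b, hb, q, h5, rfl⟩⟩⟩

/-- `v` is the cocycle of local lifts of a map which lifts on `O` -/
def Co (U : X → Set X) (T : Set (X × X × X)) (O : Set X) (v : T → ℤ) : Prop :=
  ∃ (k : X → X → ℝ) (h : X → ℝ), (∀ a, ContinuousOn (k a) (U a)) ∧ ContinuousOn h O ∧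
    (∀ a b, ∀ p ∈ U a, p ∈ U b → Circle.exp (k a p) = Circle.exp (k b p)) ∧
    (∀ a, ∀ p ∈ U a, p ∈ O → Circle.exp (k a p) = Circle.exp (h p)) ∧
    ∀ τ : T, k τ.1.1 τ.1.2.2 = k τ.1.2.1 τ.1.2.2 + v τ * (2 * Real.pi)

theorem co_span {U : X → Set X} {T : Set (X × X × X)} {O : Set X} {S : Set (T → ℤ)}
    (hS : ∀ v ∈ S, Co U T O v) {v : T → ℤ} (hv : v ∈ Submodule.span ℤ S) : Co U T O v := by
  induction hv using Submodule.span_induction with
  | mem v h => exact hS v h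
  | zero =>
    exact ⟨fun _ _ => 0, fun _ => 0, fun _ => continuousOn_const, continuousOn_const,
      fun _ _ _ _ _ => rfl, fun _ _ _ _ => rfl, fun _ => by simp⟩
  | add v w _ _ h1 h2 =>
    obtain ⟨k, h, a1, a2, a3, a4, a5⟩ := h1
    obtain ⟨k', h', b1, b2, b3, b4, b5⟩ := h2
    refine ⟨fun a p => k a p + k' a p, fun p => h p + h' p, fun a => (a1 a).add (b1 a), a2.add b2,
      fun a b p ha hb => ?_, fun a p ha hp => ?_, fun τ => ?_⟩
    · rw [Circle.exp_add, Circle.exp_add, a3 a b p ha hb, b3 a b p ha hb]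
    · rw [Circle.exp_add, Circle.exp_add, a4 a p ha hp, b4 a p ha hp]
    · simp only [Pi.add_apply, Int.cast_add, a5 τ, b5 τ]
      ring
  | smul m v _ h1 =>
    obtain ⟨k, h, a1, a2, a3, a4, a5⟩ := h1
    refine ⟨fun a p => m * k a p, fun p => m * h p, fun a => continuousOn_const.mul (a1 a),
      continuousOn_const.mul a2, fun a b p ha hb => ?_, fun a p ha hp => ?_, fun τ => ?_⟩
    · rw [Circle.exp_intCast_mul, Circle.exp_intCast_mul, a3 a b p ha hb]
    · rw [Circle.exp_intCast_mul, Circle.exp_intCast_mul, a4 a p ha hp]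
    · simp only [Pi.smul_apply, smul_eq_mul, Int.cast_mul, a5 τ]
      ring

/-- the topological statement -/
theorem top [T2Space X] [CompactSpace X] [LocallyConnectedSpace X]
    (hl : ∀ p : X, ∃ U : Set X, IsOpen U ∧ p ∈ U ∧ ∀ z : X → Circle, Continuous z → Lifts z U)
    (P : (X → Circle) → Prop) (hP : ∀ z, P z → Continuous z) :
    ∃ zs : List (X → Circle), (∀ z ∈ zs, P z) ∧
      ∀ (O : Set X) z, P z → (∀ w ∈ zs, Lifts w O) → Lifts z O := by
  classical
  choose U hU hm hL using hl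
  obtain ⟨V, s, T, hT, hV, hVU, hcov, hTU, hc⟩ := data U hU hm
  have : Finite T := hT.to_subtype
  choose g hg1 hg2 using fun (z : {z // P z}) (a : X) => hL a z.1 (hP z.1 z.2)
  have hn : ∀ (z : {z // P z}) (τ : T), ∃ m : ℤ,
      g z τ.1.1 τ.1.2.2 = g z τ.1.2.1 τ.1.2.2 + m * (2 * Real.pi) := fun z τ =>
    Circle.exp_eq_exp.1 ((hg2 z _ _ (hTU τ.1 τ.2).1).symm.trans (hg2 z _ _ (hTU τ.1 τ.2).2))
  choose n hn using hn
  obtain ⟨S, hS1, hS2⟩ := (Submodule.fg_span_iff_fg_span_finset_subset (range n)).1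
    (IsNoetherian.noetherian (Submodule.span ℤ (range n)))
  choose w hw using fun v (hv : v ∈ S) => mem_range.1 (hS1 hv)
  refine ⟨S.attach.toList.map fun v => (w v.1 v.2).1, fun z hz => ?_, fun O z hz hO => ?_⟩
  · obtain ⟨v, -, rfl⟩ := List.mem_map.1 hz
    exact (w v.1 v.2).2
  have h1 : Co U T O (n ⟨z, hz⟩) := by
    refine co_span (S := (S : Set (T → ℤ))) (fun v hv => ?_)
      (hS2 ▸ Submodule.subset_span (mem_range_self _))
    obtain ⟨h, h1, h2⟩ := hO (w v hv).1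
      (List.mem_map.2 ⟨⟨v, hv⟩, Finset.mem_toList.2 (Finset.mem_attach _ _), rfl⟩)
    refine ⟨g (w v hv), h, hg1 _, h1, fun a b p ha hb => ?_, fun a p ha hp => ?_, fun τ => ?_⟩
    · exact (hg2 _ a p ha).symm.trans (hg2 _ b p hb)
    · exact (hg2 _ a p ha).symm.trans (h2 p hp)
    · rw [hn _ τ, hw v hv]
  obtain ⟨k, h, a1, a2, a3, a4, a5⟩ := h1
  set G := g ⟨z, hz⟩ with hG
  have hGz : ∀ a, ∀ p ∈ U a, z p = Circle.exp (G a p) := fun a p hp => hg2 ⟨z, hz⟩ a p hp
  have glue : ∀ a ∈ s, ∀ b ∈ s, ∀ p ∈ V a, p ∈ V b → G a p - k a p = G b p - k b p := by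
    intro a ha b hb p hpa hpb
    obtain ⟨c, c1, c2, c3, q, c4, c5⟩ := hc a ha b hb p hpa hpb
    have ca : c ⊆ U a := fun y hy => (c1 hy).1
    have cb : c ⊆ U b := fun y hy => (c1 hy).2
    refine Circle.isCoveringMap_exp.eqOn_of_comp_eqOn (g₁ := fun p => G a p - k a p)
      (g₂ := fun p => G b p - k b p) c2 (((hg1 _ a).sub (a1 a)).mono ca)
      (((hg1 _ b).sub (a1 b)).mono cb) (fun y hy => ?_) c4 ?_ c3
    · simp only [comp_apply, Circle.exp_sub, ← hGz a y (ca hy), ← hGz b y (cb hy),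
        a3 a b y (ca hy) (cb hy)]
    · have e1 := hn ⟨z, hz⟩ ⟨_, c5⟩
      have e2 := a5 ⟨_, c5⟩
      simp only at e1 e2 ⊢
      rw [← hG] at e1
      linarith
  choose al hal1 hal2 using hcov
  have hcont : Continuous fun p => G (al p) p - k (al p) p := by
    refine continuous_iff_continuousAt.2 fun p => ?_
    have h2 : ContinuousAt (fun q => G (al p) q - k (al p) q) p :=
      ((hg1 _ _).sub (a1 _)).continuousAt ((hU _).mem_nhds (hVU _ (hal2 p)))
    refine h2.congr ?_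
    filter_upwards [(hV _).mem_nhds (hal2 p)] with q hq
    exact glue _ (hal1 p) _ (hal1 q) q hq (hal2 q)
  refine ⟨fun p => G (al p) p - k (al p) p + h p, hcont.continuousOn.add a2, fun p hp => ?_⟩
  rw [Circle.exp_add, Circle.exp_sub, ← hGz _ p (hVU _ (hal2 p)), a4 _ p (hVU _ (hal2 p)) hp,
    div_mul_cancel]

end FGa

theorem fg : FGStmt := by
  intro d ι _ _ X _ _ _ _ _ M hX
  have := M.locallyConnected
  exact FGa.top (fun p => FGa.loc_lift (M.ch p) (M.mem p)) (SmC M)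
    fun z hz => continuous_induced_rng.2 (Imm.Sm.continuous hz)

end Crest.Agent.N228.N3

end
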