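import Crest.Agent.N228.N3.Defs
import Crest.Agent.N228.Nk.Two

/-! # Row 228, dimension three (helper16): the neck -/

set_option autoImplicit false
open MeasureTheory Set Filter Topology Function
open scoped ContDiff
open Crest.Agent.N222 Crest.Agent.N222.Imm Crest.Agent.N228.Nk

noncomputable section

namespace Crest.Agent.N228.N3

theorem neck (hP : ProfStmt) (hL : NkLimStmt) : NeckStmt := by
  intro d ι _ _ X _ _ _ _ _ _ M F hi hF hd φ ψ a T δ hφ ha hδ hψ hE
  subst hd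
  obtain ⟨K, H⟩ := two (θp := fun p => 3 - φ p) (θm := fun p => 3 + φ p) hi hF
    ((sm_const _).sub hφ) ((sm_const _).add hφ) (fun p h => by linarith) hδ
  obtain ⟨k, L, hk, k0, k1, k2, k3, k4⟩ := hP (K / a)
  have hK : K ≤ a * L := (div_le_iff₀' ha).1 k0
  have hh : M.Sm fun p => a * k (φ p) := (sm_const _).mul (hφ.comp hk)
  obtain ⟨Λ, 𝒰, u, τ, s, hs, hl, hb, hc⟩ := H (fun p => a * k (φ p)) (a * L) (a * -L) hh hK
    (by linarith) (fun p h => by rw [k1 _ (by linarith)]) fun p h => by rw [k2 _ (by linarith)]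
  have key : ∀ p, M.pre.gam φ φ p ≤ a ^ 2 → -(12 * a ^ 2) ≤ (a * k (φ p)) ^ 2 -
      2 * √(M.pre.gam (fun p => a * k (φ p)) (fun p => a * k (φ p)) p) := by
    intro p hp
    have h1 : √(M.pre.gam (fun p => a * k (φ p)) (fun p => a * k (φ p)) p) ≤
        a ^ 2 * |deriv k (φ p)| := by
      rw [I.gam_comp_self hφ ((hk.differentiable (by simp) _).hasDerivAt.const_mul a)]
      refine Real.sqrt_le_iff.2 ⟨by positivity, ?_⟩
      rw [mul_pow, mul_pow, sq_abs]
      nlinarith [mul_le_mul_of_nonneg_left hp (mul_nonneg (sq_nonneg a) (sq_nonneg (deriv k (φ p))))]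
    nlinarith [mul_le_mul_of_nonneg_left (k4 (φ p)) (sq_nonneg a)]
  obtain ⟨j, j1, j2⟩ := ((hL 2 ι X M F _ Λ 𝒰 u τ s hi hF hs rfl ψ hψ
    (fun p hp => by linarith [key p (hE p hp).1, (hE p hp).2]) T).and (hb (T + 1))).exists
  obtain ⟨lo, up, c1, c2⟩ := hc j
  obtain ⟨-, c4⟩ := c2 fun p => ⟨mul_le_mul_of_nonneg_left (abs_le.1 (k3 _)).1 ha.le,
    mul_le_mul_of_nonneg_left (abs_le.1 (k3 _)).2 ha.le⟩
  have hu := (hs.adm j).sm
  refine ⟨u j, fun p => F p + Real.log (M.vv (u j) p), min lo (-(T + 1)), max up (T + 1), hu,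
    hF.add (hu.vv.log fun p => (M.vv_pos _ p).ne'), min_lt_of_right_lt (by linarith),
    lt_max_of_lt_right (lt_add_one T), fun p hp => ?_,
    fun p => ⟨min_le_of_left_le (c4 p).1, le_max_of_le_left (c4 p).2⟩,
    fun p hp => by linarith [(j2 p).1 (by linarith)], fun p hp => by linarith [(j2 p).2 (by linarith)],
    fun p hp => ?_, fun p hp => ?_, j1⟩
  · have h1 := (hl j p).trans (gn_le_gain _ _ _ _)
    have h2 : -(12 * a ^ 2) ≤ min 0 ((a * k (φ p)) ^ 2 -
        2 * |M.pre.dir (M.Xf (u j)) (fun p => a * k (φ p)) p|) :=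
      le_min (neg_nonpos.2 (by positivity))
        (by linarith [key p hp, abs_dir_le_sqrt M (u j) (fun p => a * k (φ p)) p])
    have h3 : 0 ≤ (M.gS (u j)).gam (M.vv (u j)) (M.vv (u j)) p / M.vv (u j) p ^ 2 :=
      div_nonneg (graph_pre hu ▸ gam_self_nonneg (M := M.graph (u j) hu) _ _) (sq_nonneg _)
    rw [EF_graph hF hu]
    linarith
  · have h1 := (c1 p).1 (by linarith)
    rw [max_eq_left (h1 ▸ (j2 p).1 (by linarith)), h1]
  · have h1 := (c1 p).2 (by linarith)
    rw [min_eq_left (h1 ▸ (j2 p).2 (by linarith)), h1]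

end Crest.Agent.N228.N3

end
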