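import Crest.Agent.N228.N3.Defs
import Crest.Agent.N228.N3.Band

/-!
# Row 228, dimension three (helper62): the slabs of a weak sequence have small components
-/

set_option autoImplicit false
set_option linter.unusedSectionVars false
open MeasureTheory Set Filter Topology Function Metric
open scoped ContDiff Real
open Crest.Agent.N222 Crest.Agent.N222.Imm

noncomputable section

namespace Crest.Agent.N228.N3

variable {ι : Type} [Fintype ι] [DecidableEq ι] {X : Type}
  [TopologicalSpace X] [T2Space X] [SecondCountableTopology X] [MeasurableSpace X] [BorelSpace X]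

/-- the components of a closed surface which meet `11 ≤ ψ` are small -/
theorem surf_small [CompactSpace X] {N : Imm 2 ι X} (hN : Injective N.x) {V ψ f : X → ℝ}
    (hV : Continuous V) (hf : N.Form V) (hψ : Lip1 N {p | 0 < ψ p} ψ)
    (hs : ∀ p, 0 < ψ p → 49 / 100 ≤ V p) (h : Lip1 N {p | 0 < ψ p} f) {p q : X}
    (hq : q ∈ connectedComponent p) (hp : 11 ≤ ψ p) : f p - f q ≤ 10 := by
  have hπ : 4 * π ^ 2 < 49 / 100 * 10 ^ 2 := by nlinarith [Real.pi_lt_d2, Real.pi_pos]
  have h1 : ∀ y ∈ connectedComponent p, 0 < ψ y := fun y hy => by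
    by_contra! h0
    linarith [Bd.band_comp hN hV hf hψ.1 (a := 1) (by norm_num) hπ (fun z _ hz _ =>
      ⟨hψ.2 z (one_pos.trans hz), hs z (one_pos.trans hz)⟩) hy mem_connectedComponent
      (h0.trans zero_le_one)]
  linarith [Bd.band_comp hN hV hf h.1 (a := f q) (by norm_num) hπ
    (fun z hz _ _ => ⟨h.2 z (h1 z hz), hs z (h1 z hz)⟩) hq mem_connectedComponent le_rfl]

theorem nkLim : NkLimStmt := by
  intro m ι _ _ X _ _ _ _ _ _ M F h Λ 𝒰 u τ s hM hF H hm ψ hψ hE T
  subst hm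
  obtain ⟨N, -, hN⟩ := wLim 2 ι X M F h Λ 𝒰 u τ s hM hF H
  have hc : Continuous fun p => M.pre.EF F p + h p ^ 2 - 2 * √(M.pre.gam h h p) :=
    (hF.EF.continuous.add (H.smh.continuous.pow 2)).sub
      (continuous_const.mul (H.smh.gam H.smh).continuous.sqrt)
  obtain ⟨G, hG, hG'⟩ := Gr.exists_sm_le M hc (δ := 1 / 100) (by norm_num)
  have h1 := hN G hG.continuous fun q => (hG' q).2.trans (by
    gcongr
    exact sub_le_self _ (gam_self_nonneg _ _))
  have h2 : M.Bad 𝒰 u = ∅ := Rz.empty_of_nets h1.nets (by norm_num)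
  have h3 : M.Sig 𝒰 u = Sb 𝒰 u := by rw [Imm.Sig, h2, sdiff_empty]
  have : CompactSpace ↥(M.Sig 𝒰 u) :=
    isCompact_iff_compactSpace.1 (h3 ▸ (isClosed_Sb 𝒰 u).isCompact)
  have hx : ∀ q : M.Sig 𝒰 u, N.x q = M.x q := h1.x
  have hl := Loc.of_cont (N := N) (M := M) continuous_subtype_val hx
  have hNi : Injective N.x := fun a b hab => Subtype.ext (hM (by rwa [← hx, ← hx]))
  have hfo : N.Form fun q => G q := Bd.form_of_slice hF hG h1
  have hres : ∀ f, Lip1 M {p | 0 < ψ p} f →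
      Lip1 N {p | 0 < ψ p.1} fun p => f p.1 := fun f hf =>
    ⟨hf.1.res hl, fun p hp => ((hl p).gam_le (hf.1.diffAt _)).trans (hf.2 p hp)⟩
  have hsm : ∀ f, Lip1 M {p | 0 < ψ p} f → ∀ p q : M.Sig 𝒰 u, q ∈ connectedComponent p →
      11 ≤ ψ p → f p - f q ≤ 10 := fun f hf p q hq hp =>
    surf_small hNi (hG.res hl).continuous hfo (hres ψ hψ)
      (fun y hy => by linarith [hE y hy, (hG' y).1]) (hres f hf) hq hp
  have := N.locallyConnected
  obtain ⟨r1, hr1, hsep⟩ := exists_lebesgue hNi isCompact_univ connectedComponent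
    (fun _ => isOpen_connectedComponent) fun p _ => mem_iUnion.2 ⟨p, mem_connectedComponent⟩
  obtain ⟨r0, hr0, hmv⟩ := exists_mvt (F := ℝ) hM
  obtain ⟨L, hL, hLip⟩ := hψ.1.exists_lip hM
  obtain ⟨r, hr, a0, a1, a2, a3⟩ : ∃ r : ℝ, 0 < r ∧ r ≤ r0 ∧ 2 * r ≤ r1 ∧ L * r ≤ 1 ∧ r ≤ 1 / 4 := by
    refine ⟨min (min r0 (r1 / 2)) (min (1 / L) (1 / 4)), by positivity,
      (min_le_left _ _).trans (min_le_left _ _), ?_, ?_, (min_le_right _ _).trans (min_le_right _ _)⟩
    · linarith [(min_le_left _ (min (1 / L) (1 / 4))).trans (min_le_right r0 (r1 / 2))]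
    · exact (le_div_iff₀' hL).1 ((min_le_right _ _).trans (min_le_left _ _))
  -- tubes
  set tb : Set (M.Sig 𝒰 u) → Set X := fun A => ⋃ z ∈ A, {y | ‖M.x y - M.x z‖ < r} with htb
  have ho : ∀ A, IsOpen (tb A) := fun A => isOpen_biUnion fun z _ =>
    isOpen_lt (M.continuous_x.sub continuous_const).norm continuous_const
  have hev : ∀ᶠ j in (𝒰 : Filter ℕ), ∀ y ∈ (tb univ)ᶜ, T < |u j y| := by
    refine (ho univ).isClosed_compl.isCompact.induction_on (p := fun K =>
      ∀ᶠ j in (𝒰 : Filter ℕ), ∀ y ∈ K, T < |u j y|) (by simp)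
      (fun s t hst ht => ht.mono fun j hj y hy => hj y (hst hy))
      (fun s t hs ht => (hs.and ht).mono fun j hj y hy => hy.elim (hj.1 y) (hj.2 y)) fun y hy => ?_
    obtain ⟨W, hW, hW'⟩ := (wCyl 2 ι X M F h Λ 𝒰 u τ s hM hF H).2 y (fun hy' => hy
      (mem_biUnion (mem_univ (⟨y, h3 ▸ hy'⟩ : M.Sig 𝒰 u)) (by simpa using hr))) T
    exact ⟨W, mem_nhdsWithin_of_mem_nhds hW, hW'⟩
  filter_upwards [hev] with j hj f hf c hc hcc p hp q hq
  have hin : c ⊆ tb univ := fun y hy => by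
    by_contra h0
    exact (hj y h0).not_ge (hc hy).1
  have hnear : ∀ y ∈ c, ∀ z : X, ‖M.x y - M.x z‖ < r → 11 ≤ ψ z ∧ |f z - f y| ≤ 1 / 2 := by
    intro y hy z hz
    have b1 : 12 ≤ ψ y := (hc hy).2
    have b2 : ∀ w, ‖M.x w - M.x y‖ < 2 * r → ψ y - ψ w ≤ L * ‖M.x w - M.x y‖ := fun w _ => by
      linarith [(abs_le.1 (hLip w y)).1]
    rw [norm_sub_rev] at hz
    have b3 := hmv f y z r 1 a0 hz fun w hw => ⟨hf.1.diffAt w, by
      rw [norm_td, ← sq_le_one_iff₀ (norm_nonneg _), ← gam_self_eq]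
      exact hf.2 w (by
        have := b2 w hw
        have := mul_le_mul_of_nonneg_left hw.le hL.le
        change 0 < ψ w
        linarith)⟩
    refine ⟨?_, b3.trans (by linarith)⟩
    have := b2 z (by linarith)
    have := mul_le_mul_of_nonneg_left hz.le hL.le
    linarith
  obtain ⟨z, -, hz⟩ := mem_iUnion₂.1 (hin hp)
  have hsub : c ⊆ tb (connectedComponent z) := by
    refine hcc.subset_left_of_subset_union (ho _) (ho (connectedComponent z)ᶜ)
      (Set.disjoint_left.2 fun y hy hy' => ?_) (fun y hy => ?_)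
      ⟨p, hp, mem_biUnion mem_connectedComponent hz⟩
    · obtain ⟨a, ha, ha'⟩ := mem_iUnion₂.1 hy
      obtain ⟨b, hb, hb'⟩ := mem_iUnion₂.1 hy'
      obtain ⟨k, hk⟩ := hsep a (mem_univ a)
      have c1 := hk a (by simpa using hr1)
      have c2 := hk b (by
        rw [hx, hx]
        have := norm_sub_le_norm_sub_add_norm_sub (M.x b) (M.x y) (M.x a)
        rw [norm_sub_rev (M.x b) (M.x y)] at this
        exact this.trans_lt (by linarith [mem_ofPred_eq ▸ ha', mem_ofPred_eq ▸ hb']))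
      refine hb ?_
      rw [connectedComponent_eq ha, ← connectedComponent_eq c1]
      exact c2
    · obtain ⟨a, -, ha⟩ := mem_iUnion₂.1 (hin hy)
      exact (em (a ∈ connectedComponent z)).imp (mem_biUnion · ha) (mem_biUnion · ha)
  obtain ⟨w, hw, hw'⟩ := mem_iUnion₂.1 (hsub hq)
  linarith [hsm f hf z w hw (hnear p hp z hz).1, abs_le.1 (hnear p hp z hz).2,
    abs_le.1 (hnear q hq w hw').2]

end Crest.Agent.N228.N3

end
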