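import Crest.Agent.N228.N3.Defs
import Crest.Agent.N222.F.Basic

/-! # Row 228, dimension three: PIECE on a closed manifold (leaf typed by helper81) -/

set_option autoImplicit false
open MeasureTheory Set Filter Topology Function
open scoped ContDiff

noncomputable section

namespace Crest.Agent.N228.N3
open Crest.Agent.N222

namespace PieceH

variable {d : ℕ} {ι : Type} [Fintype ι] [DecidableEq ι] {Y : Type} [TopologicalSpace Y]

theorem gam_comp {M : Imm d ι Y} {w : Y → ℝ} (hw : M.Sm w) {g : ℝ → ℝ} {e : ℝ} {p : Y}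
    (hg : HasDerivAt g e (w p)) :
    M.pre.gam (fun q => g (w q)) (fun q => g (w q)) p = e ^ 2 * M.pre.gam w w p := by
  simp only [Imm.gam_apply, Imm.D_comp (hw.diffAt p) hg, Finset.mul_sum]
  exact Finset.sum_congr rfl fun _ _ => by ring

theorem gam_sub {M : Imm d ι Y} {w : Y → ℝ} (hw : M.Sm w) (c : ℝ) (p : Y) :
    M.pre.gam (fun q => w q - c) (fun q => w q - c) p = M.pre.gam w w p := by
  have := gam_comp (g := fun t => t - c) (p := p) hw ((hasDerivAt_id' (w p)).sub_const c)
  simpa using this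

theorem gam_sin {M : Imm d ι Y} {r : Y → ℝ} (hr : M.Sm r) {p : Y} (h : M.pre.gam r r p ≤ 2) :
    M.pre.gam (fun q => 2 * Real.sin (r q / 20)) (fun q => 2 * Real.sin (r q / 20)) p ≤
      (1 / 7) ^ 2 := by
  have h1 : HasDerivAt (fun t : ℝ => 2 * Real.sin (t / 20))
      (2 * (Real.cos (r p / 20) * (1 / 20))) (r p) :=
    (((hasDerivAt_id' (r p)).div_const 20).sin).const_mul 2
  rw [gam_comp (g := fun t : ℝ => 2 * Real.sin (t / 20)) hr h1]
  have h2 := Real.cos_sq_le_one (r p / 20)
  have h3 := M.gam_self_nonneg r p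
  nlinarith [mul_le_mul h2 h h3 zero_le_one]

/-- a continuous function whose sine omits a value oscillates little on a connected set -/
theorem osc {P : Set Y} (hP : IsPreconnected P) {r : Y → ℝ} (hr : Continuous r) {θ : ℝ}
    (h : ∀ p ∈ P, Real.sin (r p / 20) ≠ Real.sin θ) {x y : Y} (hx : x ∈ P)
    (hy : y ∈ closure P) : r x - r y ≤ 126 := by
  have key : P ⊆ {q | r x - r q ≤ 126} := fun q hq => by
    by_contra hn
    have hn' : 126 < r x - r q := not_le.1 hn
    obtain ⟨t, ht, e⟩ := Real.sin_periodic.exists_mem_Ico Real.two_pi_pos θ (r q / 20)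
    have hπ := Real.pi_lt_d2
    obtain ⟨z, hz, ez⟩ := hP.intermediate_value hq hx hr.continuousOn
      (show 20 * t ∈ Icc (r q) (r x) from ⟨by linarith [ht.1], by linarith [ht.2]⟩)
    refine h z hz ?_
    rw [e, ez, mul_div_cancel_left₀ _ (by norm_num)]
  exact (isClosed_le (continuous_const.sub hr) continuous_const).closure_subset_iff.2 key hy

/-- the small set together with the level `30` has small components -/
theorem small_Z [T2Space Y] [CompactSpace Y] (CL : CLStmt) {ψ f : Y → ℝ} {A : Set Y} {D : ℝ}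
    (hψ : Continuous ψ) (hA : IsClosed A) (hA12 : A ⊆ {p | 12 ≤ ψ p}) (h1 : Small ψ A 11)
    (h2 : Small f A 11) (hD : 11 ≤ D) (h3 : Small f {p | 0 < ψ p ∧ ψ p ≤ 60} D) :
    Small f (A ∪ {p | ψ p = 30}) D := by
  refine small_of_closed (hA.union (isClosed_eq hψ continuous_const)) fun c hc hcl hpc => ?_
  by_cases h : ∃ p0 ∈ c, ψ p0 = 30
  · obtain ⟨p0, hp0, e0⟩ := h
    refine h3 c (fun p hp => ⟨?_, ?_⟩) hpc
    · rcases hc hp with h | h
      · exact lt_of_lt_of_le (by norm_num) (hA12 h)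
      · rw [show ψ p = 30 from h]; norm_num
    · by_contra hn
      obtain ⟨c', hc', hpc', p', hp', q', hq', e1, e2⟩ := CL Y c ψ 31 43 hpc hψ (by norm_num)
        (hcl.inter ((isClosed_le continuous_const hψ).inter
          (isClosed_le hψ continuous_const))).isCompact
        ⟨p0, hp0, by linarith⟩ ⟨p, hp, by linarith [not_le.1 hn]⟩
      have hsub : c' ⊆ A := fun z hz => by
        rcases hc (hc' hz).1 with h | h
        · exact h
        · have h4 : ψ z = 30 := h
          linarith [(hc' hz).2.1]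
      linarith [h1 c' hsub hpc' q' hq' p' hp']
  · have hsub : c ⊆ A := fun z hz => (hc hz).resolve_right fun h4 => h ⟨z, hz, h4⟩
    exact fun p hp q hq => (h2 c hsub hpc p hp q hq).trans hD

end PieceH

open PieceH in
theorem piece (FG : FGStmt) (Cuts : CutsStmt) (Dist : DistStmt) (Neck : NeckStmt)
    (Tree : TreeStmt) (CL : CLStmt) (Smin : SminStmt) : PieceStmt := by
  intro d ι _ _ X _ _ _ _ _ _ M F hinj hF hd ψ hψ hE
  obtain ⟨zs, hzs, hfg⟩ := FG d ι X M inferInstance
  obtain ⟨κ, _, _, N, F', m, hL, hm, hlift, habs⟩ := Cuts d ι X M F hinj hF hd zs ψ 14 (1 / 20) hzs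
    (by norm_num) hψ fun p hp => le_trans (by norm_num) (hE p hp)
  have hψN := hL.lip hψ
  have cψ : Continuous ψ := hψ.1.continuous
  have cm : Continuous m := hm.1.continuous
  obtain ⟨pd, spd, hpd⟩ := (Smin d κ X N).1 (fun p => ψ p - 14) (fun p => m p - 1)
    (hψN.1.sub (Imm.sm_const _)) (hm.1.sub (Imm.sm_const _))
  have cpd : Continuous pd := spd.continuous
  have hpos : {p | 0 < pd p} ⊆ {p | 0 < ψ p} := fun p hp => by
    have h1 : 0 < pd p := hp
    have h2 := (hpd p).1
    change 0 < ψ p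
    linarith
  have lpd : Lip1 N {p | 0 < pd p} pd := ⟨spd, fun p hp => (hpd p).2.2.2
    (by rw [gam_sub hψN.1]; exact hψN.2 p (hpos hp))
    (by rw [gam_sub hm.1]; exact hm.2 p (mem_univ p))⟩
  set O : Set X := {p | 12 < ψ p} ∩ {p | 0 < m p} with hO
  set K : Set X := {p | 0 ≤ pd p} with hK
  have hKO : K ⊆ O := fun p hp => by
    have h1 : 0 ≤ pd p := hp
    have h2 := (hpd p).1
    have h3 := (hpd p).2.1
    exact ⟨show 12 < ψ p by linarith, show 0 < m p by linarith⟩
  obtain ⟨r, b, sr, hr, hb, hγ⟩ := Dist d κ X N O K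
    ((isOpen_lt continuous_const cψ).inter (isOpen_lt continuous_const cm))
    (isClosed_le continuous_const cpd).isCompact hKO
  have sφ : N.Sm fun q => 2 * Real.sin (r q / 20) :=
    sr.comp (g := fun t : ℝ => 2 * Real.sin (t / 20)) (by fun_prop)
  obtain ⟨u, F'', lo, hi, su, -, -, -, -, -, hu1, hu2, -, -, hsm⟩ :=
    Neck d κ X N F' hL.inj (hL.sm_iff.2 hL.sm) hd (fun q => 2 * Real.sin (r q / 20)) pd (1 / 7) 1 1
      sφ (by norm_num) one_pos lpd fun p hp => ⟨gam_sin sr (hr p (le_of_lt hp)), by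
        linarith [hL.E p, hE p (hpos hp)]⟩
  have cu : Continuous u := su.continuous
  set B : Set X := {p | |u p| ≤ 1} ∩ {p | 12 ≤ pd p} with hB
  have hBc : IsClosed B :=
    (isClosed_le cu.abs continuous_const).inter (isClosed_le continuous_const cpd)
  have hB12 : B ⊆ {p | 12 ≤ ψ p} := fun p hp => by
    have h1 : 12 ≤ pd p := hp.2
    have h2 := (hpd p).1
    change 12 ≤ ψ p
    linarith
  have hA := habs B hBc hB12 fun f hf => hsm f (hf.mono hpos)
  set A : Set X := B ∪ {p | m p ≤ 14} ∩ {p | 12 ≤ ψ p} with hAdef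
  have hAc : IsClosed A :=
    hBc.union ((isClosed_le cm continuous_const).inter (isClosed_le continuous_const cψ))
  have hA12 : A ⊆ {p | 12 ≤ ψ p} := union_subset hB12 inter_subset_right
  refine ⟨A, hAc, hA12, hA, fun f hf D hD hfD => ?_⟩
  have hZ := small_Z CL cψ hAc hA12 (hA ψ hψ) (hA f hf) hD hfD
  set W : Set X := {p | 30 < ψ p} \ A with hW
  have hWo : IsOpen W := (isOpen_lt continuous_const cψ).sdiff hAc
  have hW12 : W ⊆ {p | 12 ≤ pd p} := fun p hp => by
    have h1 : 30 < ψ p := hp.1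
    have h2 : 14 < m p := by
      by_contra hn
      exact hp.2 (Or.inr ⟨not_lt.1 hn, show 12 ≤ ψ p by linarith⟩)
    have h3 := (hpd p).2.2.1
    have h4 : 13 ≤ min (ψ p - 14) (m p - 1) := le_min (by linarith) (by linarith)
    change 12 ≤ pd p
    linarith
  have hWK : closure W ⊆ K := (isClosed_le continuous_const cpd).closure_subset_iff.2
    fun p hp => le_trans (by norm_num) (show 12 ≤ pd p from hW12 hp)
  have hWZ : closure W ⊆ W ∪ (A ∪ {p | ψ p = 30}) := fun p hp => by
    have h1 : 30 ≤ ψ p := (isClosed_le continuous_const cψ).closure_subset_iff.2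
      (fun q (hq : q ∈ W) => le_of_lt (show 30 < ψ q from hq.1)) hp
    by_cases h2 : p ∈ A
    · exact Or.inr (Or.inl h2)
    · rcases h1.eq_or_lt with h3 | h3
      · exact Or.inr (Or.inr h3.symm)
      · exact Or.inl ⟨h3, h2⟩
  have hfN : Lip1 N O f := (hL.lip hf).mono fun p hp =>
    lt_trans (by norm_num) (show 12 < ψ p from hp.1)
  intro c hc hpc x hx x' hx'
  have hcK : c ⊆ K := hc.trans (subset_closure.trans hWK)
  have hcP : c ⊆ connectedComponentIn W x := hpc.subset_connectedComponentIn hx hc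
  have hPW : connectedComponentIn W x ⊆ W := connectedComponentIn_subset W x
  have hPc : IsPreconnected (connectedComponentIn W x) := isPreconnected_connectedComponentIn
  have hosc : ∀ p ∈ connectedComponentIn W x, ∀ y ∈ closure (connectedComponentIn W x),
      r p - r y ≤ 126 := by
    have h1 : ∀ p ∈ W, 1 < |u p| := fun p hp => by
      by_contra hn
      exact hp.2 (Or.inl ⟨not_lt.1 hn, hW12 hp⟩)
    have h2 : connectedComponentIn W x ⊆ {p | 0 < u p} ∪ {p | u p < 0} := fun p hp => by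
      have h3 : u p ≠ 0 := fun h0 => by
        have := h1 p (hPW hp)
        rw [h0, abs_zero] at this
        norm_num at this
      exact h3.lt_or_gt.symm
    rcases hPc.subset_or_subset (isOpen_lt continuous_const cu) (isOpen_lt cu continuous_const)
      (disjoint_left.2 fun p (h3 : 0 < u p) (h4 : u p < 0) => lt_asymm h3 h4) h2 with h3 | h3
    · refine fun p hp y hy => osc (θ := -(Real.pi / 2)) hPc sr.continuous (fun q hq e => ?_) hp hy
      rw [Real.sin_neg, Real.sin_pi_div_two] at e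
      have h4 : 0 < u q := h3 hq
      linarith [hu2 q (by rw [e]; norm_num)]
    · refine fun p hp y hy => osc (θ := Real.pi / 2) hPc sr.continuous (fun q hq e => ?_) hp hy
      rw [Real.sin_pi_div_two] at e
      have h4 : u q < 0 := h3 hq
      linarith [hu1 q (by rw [e]; norm_num)]
  obtain ⟨γ, cγ, e0, e1, hγ1⟩ := hγ x (hcK hx)
  obtain ⟨γ', cγ', e0', e1', hγ2⟩ := hγ x' (hcK hx')
  obtain ⟨s, hs, s', hs', hy, hy', hyy⟩ := Tree d ι X M inferInstance O W (A ∪ {p | ψ p = 30}) hWo
    (hAc.union (isClosed_eq cψ continuous_const)) hWZ (hWK.trans hKO)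
    (fun z hz => hfg O z hz fun w hw => (hlift w hw).mono inter_subset_right) x γ γ' cγ cγ'
    (e0 ▸ hcP hx) (e0' ▸ hcP hx') (by rw [e1, e1', hb c (hcK.trans hKO) hpc x hx x' hx'])
    fun s hs => ⟨(hγ1 s hs).1, (hγ2 s hs).1⟩
  have a1 := abs_le.1 ((hγ1 s hs).2 (hWK (closure_mono hPW hy)) f hfN)
  have a2 := abs_le.1 ((hγ2 s' hs').2 (hWK (closure_mono hPW hy')) f hfN)
  have a3 := hosc x (hcP hx) _ hy
  have a4 := hosc x' (hcP hx') _ hy'
  have a5 : f (γ s) - f (γ' s') ≤ D := by
    rcases hyy with e | ⟨C, hC, hCp, h1, h2⟩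
    · rw [e]; linarith
    · exact hZ C hC hCp _ h1 _ h2
  linarith [a1.2, a2.1]

end Crest.Agent.N228.N3

end
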