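import Crest.Agent.N228.N3.Close

/-!
# Row 228, dimension three: a piece on an open manifold (helper66)
-/

set_option autoImplicit false
open MeasureTheory Set Filter Topology Function
open scoped ContDiff
open Crest.Agent.N222 Crest.Agent.N222.Imm

noncomputable section

namespace Crest.Agent.N228.N3

/-- **PIECE on an open manifold** -/
theorem pieceX (h1 : CloseInjStmt) (h2 : PieceStmt) : PieceXStmt := by
  intro d ι _ _ X _ _ _ _ _ M hd hi hM ψ hψ hK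
  obtain ⟨Y, _, _, _, _, _, _, N, e, c, F, hN, hKe, hx, hF, hE⟩ :=
    h1 d ι X M hi _ _ (1 / 10) continuous_const hM hK (by norm_num)
  obtain ⟨χ, hχ, hs, h01, hχ1⟩ := M.exists_bump hK e.open_source hKe
  have hχ1 : ∀ p, 0 ≤ ψ p → ∀ᶠ q in 𝓝 p, χ q = 1 := eventually_nhdsSet_iff_forall.1 hχ1
  let P : (X → ℝ) → Y → ℝ := fun f => push e fun q => χ q * f q
  have hP : ∀ f p, 0 ≤ ψ p → P f (e p) = f p := fun f p hp =>
    (push_ev (hKe hp) (hχ1 p hp) f).self_of_nhds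
  have hpos : ∀ y, 0 < P ψ y → ∃ p, 0 < ψ p ∧ e p = y := fun y hy => by
    obtain ⟨p, -, h3, h4⟩ := push_ne hy.ne'
    exact ⟨p, pos_of_mul_pos_right (hy.trans_eq h4) (h01 p).1, h3⟩
  have hL : ∀ f, Lip1 M {p | 0 < ψ p} f → Lip1 N {y | 0 < P ψ y} (P f) := fun f hf =>
    ⟨sm_push hx hχ hs hf.1, fun y hy => by
      obtain ⟨p, hp, rfl⟩ := hpos y hy
      exact (gam_push hx (hKe hp.le) (hχ1 p hp.le) f f).trans_le (hf.2 p hp)⟩
  obtain ⟨A, hA, hA12, hAs, hAo⟩ := h2 d (Option ι) Y N F hN hF hd (P ψ) (hL ψ hψ) fun y hy => by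
    obtain ⟨p, hp, rfl⟩ := hpos y hy
    linarith [hE p (hKe hp.le)]
  have h12 : ∀ {p}, 12 ≤ ψ p → 0 ≤ ψ p := fun hp => by linarith
  have h30 : ∀ {p}, 30 < ψ p → 0 ≤ ψ p := fun hp => by linarith
  refine ⟨{p | 12 ≤ ψ p} ∩ e ⁻¹' A,
    (e.continuousOn.mono fun p hp => hKe (h12 hp)).preimage_isClosed_of_isClosed
    (isClosed_le continuous_const hψ.1.continuous) hA, inter_subset_left, fun f hf =>
    (hAs _ (hL f hf)).pull (fun p hp => hKe (h12 hp.1)) (fun p hp => hp.2)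
      fun p hp => hP f p (h12 hp.1), fun f hf D hD h => ?_⟩
  refine (hAo _ (hL f hf) D hD (h.pull (e := e.symm) (fun y hy => ?_) (fun y hy => ?_)
    fun y hy => ?_)).pull (fun p hp => hKe (h30 hp.1)) (fun p hp => ⟨?_, fun h => hp.2 ⟨?_, h⟩⟩)
      fun p hp => hP f p (h30 hp.1)
  · obtain ⟨p, hp, rfl⟩ := hpos y hy.1
    exact e.map_source (hKe hp.le)
  · obtain ⟨p, hp, rfl⟩ := hpos y hy.1
    rw [e.left_inv (hKe hp.le)]
    exact ⟨hp, (hP ψ p hp.le).ge.trans hy.2⟩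
  · obtain ⟨p, hp, rfl⟩ := hpos y hy.1
    rw [e.left_inv (hKe hp.le), hP f p hp.le]
  · exact lt_of_lt_of_eq hp.1 (hP ψ p (h30 hp.1)).symm
  · have h3 : 30 < ψ p := hp.1
    change 12 ≤ ψ p
    linarith

end Crest.Agent.N228.N3

end
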