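import Crest.Agent.N228.N3.Defs
import Crest.Agent.N228.Nk.Prof
import Crest.Agent.N222.F.Basic

/-!
# Row 228, dimension three: the profile and the smooth minimum (leaf N3-Prof)
-/

set_option autoImplicit false
open MeasureTheory Set Filter Topology Function
open scoped ContDiff

noncomputable section

namespace Crest.Agent.N228.N3
open Crest.Agent.N222

namespace Pf

/-- a smooth odd clamp -/
theorem exists_clamp {e : ℝ} (he : 0 < e) (he1 : e ≤ 1 / 4) : ∃ (k : ℝ → ℝ) (c : ℝ),
    ContDiff ℝ ∞ k ∧ 1 - 2 * e ≤ c ∧ c < 1 ∧ (∀ t, 1 ≤ t → k t = c) ∧ (∀ t, k (-t) = -k t) ∧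
    (∀ t, |k t| ≤ c) ∧ ∀ t, 0 ≤ deriv k t ∧ deriv k t ≤ 1 := by
  set k : ℝ → ℝ := fun s => Nk.prof 0 1 e (1 - 2 * e, s) with hk
  have ks : ContDiff ℝ ∞ k := Nk.contDiff_prof' 0 1 e _
  have kd : Differentiable ℝ k := ks.differentiable (by simp)
  have ko : ∀ t, k (-t) = -k t := Nk.prof_neg 0 1 e _
  have k1 : ∀ t, 0 ≤ deriv k t ∧ deriv k t ≤ 1 := fun t => by
    rw [hk, Nk.deriv_prof]
    have a1 := Real.smoothTransition.nonneg ((t - (1 - 2 * e)) / e)
    have a2 := Real.smoothTransition.nonneg ((-t - (1 - 2 * e)) / e)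
    have a3 := Real.smoothTransition.le_one ((t - (1 - 2 * e)) / e)
    have a4 := Real.smoothTransition.le_one ((-t - (1 - 2 * e)) / e)
    refine ⟨?_, by linarith⟩
    rcases le_total t 0 with h | h
    · have := Real.smoothTransition.zero_of_nonpos (x := (t - (1 - 2 * e)) / e)
        (div_nonpos_of_nonpos_of_nonneg (by linarith) he.le)
      linarith
    · have := Real.smoothTransition.zero_of_nonpos (x := (-t - (1 - 2 * e)) / e)
        (div_nonpos_of_nonpos_of_nonneg (by linarith) he.le)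
      linarith
  have km : Monotone k := monotone_of_deriv_nonneg kd fun t => (k1 t).1
  have ka : AntitoneOn k (Ici (1 - e)) :=
    antitoneOn_of_deriv_nonpos (convex_Ici _) ks.continuous.continuousOn kd.differentiableOn
      fun t ht => by
        have ht' : 1 - e ≤ t := interior_subset ht
        rw [hk, Nk.deriv_prof]
        have a1 := Real.smoothTransition.one_of_one_le (x := (t - (1 - 2 * e)) / e)
          ((one_le_div he).2 (by linarith))
        have a2 := Real.smoothTransition.nonneg ((-t - (1 - 2 * e)) / e)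
        linarith
  have kc : ∀ t, 1 - e ≤ t → k t = k (1 - e) := fun t ht =>
    le_antisymm (ka self_mem_Ici ht ht) (km ht)
  have kv : k (1 - e) = 1 - e - Nk.ramp e e := by
    have h0 : Nk.ramp e (-(1 - e) - (1 - 2 * e)) = 0 := Nk.ramp_eq_zero he (by linarith)
    have h1 : 1 - e - (1 - 2 * e) = e := by ring
    simp only [hk, Nk.prof, h0, h1]
    ring
  have hr := Nk.ramp_mem (x := e) he
  rw [max_eq_left he.le] at hr
  have kle : ∀ t, k t ≤ k (1 - e) := fun t =>
    (km (le_max_left t (1 - e))).trans (kc _ (le_max_right _ _)).le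
  refine ⟨k, k (1 - e), ks, by linarith, by linarith, fun t ht => kc t (by linarith), ko,
    fun t => abs_le.2 ⟨?_, kle t⟩, k1⟩
  linarith [kle (-t), ko t]

theorem hasDerivAt_h {s : ℝ} (hs : 1 - s ^ 2 ≠ 0) :
    HasDerivAt (fun s : ℝ => 6 * s / (1 - s ^ 2)) (6 * (1 + s ^ 2) / (1 - s ^ 2) ^ 2) s := by
  have h := ((hasDerivAt_id' s).const_mul 6).div ((hasDerivAt_pow 2 s).const_sub 1) hs
  refine h.congr_deriv ?_
  congr 1
  norm_num
  ring

end Pf

open Pf

theorem prof : ProfStmt := by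
  intro L
  obtain ⟨e, he, he1, heL⟩ : ∃ e : ℝ, 0 < e ∧ e ≤ 1 / 4 ∧ |L| * (4 * e) ≤ 1 := by
    have h0 : 0 < 4 * (|L| + 1) := by positivity
    refine ⟨1 / (4 * (|L| + 1)), by positivity, ?_, ?_⟩
    · exact one_div_le_one_div_of_le (by norm_num) (by linarith [abs_nonneg L])
    · rw [mul_one_div, ← mul_div_assoc, div_le_one h0]
      linarith
  obtain ⟨k, c, ks, c1, c2, kc, ko, kb, k1⟩ := exists_clamp he he1
  have kd : Differentiable ℝ k := ks.differentiable (by simp)
  have c0 : 1 / 2 ≤ c := by linarith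
  have hp : ∀ t, 0 < 1 - k t ^ 2 := fun t => by
    have := sq_le_sq' (abs_le.1 (kb t)).1 (abs_le.1 (kb t)).2
    nlinarith
  have hc : 0 < 1 - c ^ 2 := by nlinarith
  have hd : ∀ t, HasDerivAt (fun t => 6 * k t / (1 - k t ^ 2))
      (6 * (1 + k t ^ 2) / (1 - k t ^ 2) ^ 2 * deriv k t) t := fun t =>
    (hasDerivAt_h (hp t).ne').comp t (kd t).hasDerivAt
  have hm : Monotone fun t => 6 * k t / (1 - k t ^ 2) :=
    monotone_of_deriv_nonneg (fun t => (hd t).differentiableAt) fun t => by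
      rw [(hd t).deriv]
      exact mul_nonneg (by positivity) (k1 t).1
  have e1 : ∀ t, 1 ≤ t → 6 * k t / (1 - k t ^ 2) = 6 * c / (1 - c ^ 2) := fun t ht => by
    rw [kc t ht]
  have e2 : ∀ t, t ≤ -1 → 6 * k t / (1 - k t ^ 2) = -(6 * c / (1 - c ^ 2)) := fun t ht => by
    have : k t = -c := by linarith [ko t, kc (-t) (by linarith)]
    rw [this]
    ring
  refine ⟨fun t => 6 * k t / (1 - k t ^ 2), 6 * c / (1 - c ^ 2),
    (contDiff_const.mul ks).div (contDiff_const.sub (ks.pow 2)) fun t => (hp t).ne', ?_, e1, e2,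
    fun t => abs_le.2 ⟨?_, ?_⟩, fun t => ?_⟩
  · rw [le_div_iff₀ hc]
    have h1 : 1 - c ^ 2 ≤ 4 * e := by nlinarith
    have h2 : L * (1 - c ^ 2) ≤ |L| * (4 * e) :=
      mul_le_mul (le_abs_self L) h1 hc.le (abs_nonneg L)
    linarith
  · exact (e2 _ (min_le_right t (-1))).ge.trans (hm (min_le_left _ _))
  · exact (hm (le_max_left t 1)).trans (e1 _ (le_max_right _ _)).le
  · have h0 := hp t
    rw [(hd t).deriv, abs_of_nonneg (mul_nonneg (by positivity) (k1 t).1)]
    have h1 : 6 * (1 + k t ^ 2) / (1 - k t ^ 2) ^ 2 * deriv k t ≤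
        6 * (1 + k t ^ 2) / (1 - k t ^ 2) ^ 2 := mul_le_of_le_one_right (by positivity) (k1 t).2
    have h2 : (6 * k t / (1 - k t ^ 2)) ^ 2 + 12 - 2 * (6 * (1 + k t ^ 2) / (1 - k t ^ 2) ^ 2) =
        12 * k t ^ 4 / (1 - k t ^ 2) ^ 2 := by
      field_simp
      ring
    have h3 : 0 ≤ 12 * k t ^ 4 / (1 - k t ^ 2) ^ 2 := by positivity
    linarith

theorem smin : SminStmt := by
  intro d ι _ _ X _ _ _ _ _ M
  refine ⟨fun f g hf hg => ?_, fun f hf => ?_⟩
  · have hS : M.Sm fun p => Real.exp (-f p) + Real.exp (-g p) := hf.neg.exp.add hg.neg.exp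
    have h0 : ∀ p, 0 < Real.exp (-f p) + Real.exp (-g p) := fun p => by positivity
    refine ⟨fun p => -Real.log (Real.exp (-f p) + Real.exp (-g p)),
      (hS.log fun p => (h0 p).ne').neg, fun p => ⟨?_, ?_, ?_, fun h1 h2 => ?_⟩⟩
    · rw [neg_le, Real.le_log_iff_exp_le (h0 p)]
      linarith [Real.exp_pos (-g p)]
    · rw [neg_le, Real.le_log_iff_exp_le (h0 p)]
      linarith [Real.exp_pos (-f p)]
    · rw [le_neg, Real.log_le_iff_le_exp (h0 p), neg_sub, sub_eq_add_neg, Real.exp_add]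
      have a1 := Real.exp_le_exp.2 (neg_le_neg (min_le_left (f p) (g p)))
      have a2 := Real.exp_le_exp.2 (neg_le_neg (min_le_right (f p) (g p)))
      nlinarith [Real.add_one_le_exp 1, Real.exp_pos (-min (f p) (g p))]
    · obtain ⟨w, hw⟩ : ∃ w, w = Real.exp (-f p) / (Real.exp (-f p) + Real.exp (-g p)) := ⟨_, rfl⟩
      have w0 : 0 ≤ w := by rw [hw]; positivity
      have w1 : w ≤ 1 := by
        rw [hw, div_le_one (h0 p)]
        linarith [Real.exp_pos (-g p)]
      have hD : ∀ a, M.pre.D a (fun p => -Real.log (Real.exp (-f p) + Real.exp (-g p))) p =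
          w * M.pre.D a f p + (1 - w) * M.pre.D a g p := fun a => by
        rw [Imm.D_neg, Imm.D_comp (hS.diffAt p) (Real.hasDerivAt_log (h0 p).ne'),
          Imm.D_add (hf.neg.exp.diffAt p) (hg.neg.exp.diffAt p),
          Imm.D_comp (hf.neg.diffAt p) (Real.hasDerivAt_exp _),
          Imm.D_comp (hg.neg.diffAt p) (Real.hasDerivAt_exp _), Imm.D_neg, Imm.D_neg, hw]
        have := (h0 p).ne'
        field_simp
        ring
      calc _ ≤ w * M.pre.gam f f p + (1 - w) * M.pre.gam g g p := by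
            simp only [Imm.gam_apply, hD, Finset.mul_sum, ← Finset.sum_add_distrib]
            refine Finset.sum_le_sum fun a _ => ?_
            nlinarith [mul_nonneg (mul_nonneg w0 (sub_nonneg.2 w1))
              (sq_nonneg (M.pre.D a f p - M.pre.D a g p))]
        _ ≤ 1 := by nlinarith
  · have h0 : ∀ p, 0 < 1 + f p ^ 2 := fun p => by positivity
    have hS : M.Sm fun p => 1 + f p ^ 2 := (Imm.sm_const 1).add (hf.pow 2)
    refine ⟨fun p => √(1 + f p ^ 2) - 1, (hS.sqrt fun p => (h0 p).ne').sub (Imm.sm_const 1),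
      fun p => ⟨?_, ?_, ?_⟩⟩
    · rw [sub_le_iff_le_add]
      refine Real.sqrt_le_iff.2 ⟨by positivity, ?_⟩
      nlinarith [abs_nonneg (f p), sq_abs (f p)]
    · exact sub_le_sub_right (Real.abs_le_sqrt (by linarith)) 1
    · have hd : HasDerivAt (fun s : ℝ => √(1 + s ^ 2) - 1) (f p / √(1 + f p ^ 2)) (f p) := by
        have h := (((hasDerivAt_pow 2 (f p)).const_add 1).sqrt (h0 p).ne').sub_const 1
        refine h.congr_deriv ?_
        have := (Real.sqrt_pos.2 (h0 p)).ne'
        norm_num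
        field_simp
      have h1 : (f p / √(1 + f p ^ 2)) ^ 2 ≤ 1 := by
        rw [div_pow, Real.sq_sqrt (h0 p).le, div_le_one (h0 p)]
        linarith
      simp only [Imm.gam_apply, Imm.D_comp (hf.diffAt p) hd]
      refine Finset.sum_le_sum fun a _ => ?_
      nlinarith [mul_le_mul_of_nonneg_right h1 (sq_nonneg (M.pre.D a f p))]

end Crest.Agent.N228.N3

end
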