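import Crest.Agent.N228.N3.Defs
import Crest.Agent.N228.Gr.Iso
import Crest.Agent.N222.F.Bump
import Crest.Agent.N222.F.Graph

/-!
# Row 228, dimension three: one radial neck (helper25)
-/

set_option autoImplicit false
set_option linter.unusedSectionVars false
open MeasureTheory Set Filter Topology Function
open scoped ContDiff

noncomputable section

namespace Crest.Agent.N228.N3
open Crest.Agent.N222 Crest.Agent.N222.Imm Crest.Agent.N228.Gr

namespace RN

/-- insertion of a zero coordinate -/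
def ins (ι : Type) [Fintype ι] : E ι →ₗᵢ[ℝ] E (Option ι) where
  toFun y := up 0 y
  map_add' _ _ := by ext c; cases c <;> simp
  map_smul' _ _ := by ext c; cases c <;> simp
  norm_map' y := by
    classical
    refine (sq_eq_sq₀ (norm_nonneg _) (norm_nonneg _)).1 ?_
    change ‖up 0 y‖ ^ 2 = _
    rw [norm_sq_up]; ring

/-- insertion of a zero coordinate at the second place -/
def ins2 (ι : Type) [Fintype ι] : E (Option ι) →ₗᵢ[ℝ] E (Option (Option ι)) where
  toFun w := up (w none) (up 0 (down w))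
  map_add' _ _ := by
    ext c
    rcases c with _ | _ | c <;> simp
  map_smul' _ _ := by
    ext c
    rcases c with _ | _ | c <;> simp
  norm_map' w := by
    classical
    refine (sq_eq_sq₀ (norm_nonneg _) (norm_nonneg _)).1 ?_
    change ‖up (w none) (up 0 (down w))‖ ^ 2 = _
    rw [norm_sq_up, norm_sq_up]
    conv_rhs => rw [← up_down w, norm_sq_up]
    ring

variable {d : ℕ} {ι : Type} [Fintype ι] [DecidableEq ι] {X Y : Type} [TopologicalSpace X]
  [TopologicalSpace Y] {M : Imm d ι X} {N : Imm d (Option ι) Y} {e : OpenPartialHomeomorph X Y}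
  {c : ℝ}

theorem ins_add (c : ℝ) (y : E ι) : ins ι y + up c 0 = up c y := by
  change up 0 y + up c 0 = _
  rw [up_add, zero_add, add_zero]

theorem li (hx : ∀ p ∈ e.source, N.x (e p) = up c (M.x p)) {p : X} (hp : p ∈ e.source) :
    LI M N e p := by
  refine ⟨ins ι, up c 0, ?_⟩
  filter_upwards [e.open_source.mem_nhds hp] with q hq
  exact ⟨e.continuousAt hq, by rw [hx q hq, ins_add]⟩

theorem li_graph (hx : ∀ p ∈ e.source, N.x (e p) = up c (M.x p)) {p : X} (hp : p ∈ e.source)
    {u : X → ℝ} {v : Y → ℝ} (hu : M.Sm u) (hv : N.Sm v) (h : u =ᶠ[𝓝 p] fun q => v (e q)) :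
    LI (M.graph u hu) (N.graph v hv) e p := by
  refine ⟨ins2 ι, up 0 (up c 0), ?_⟩
  filter_upwards [e.open_source.mem_nhds hp, h] with q hq h1
  refine ⟨e.continuousAt hq, ?_⟩
  change up (v (e q)) (N.x (e q)) = up (u q) (up 0 (down (up (u q) (M.x q)))) + _
  rw [hx q hq, ← h1, down_up, up_add, up_add, add_zero, zero_add, add_zero]

theorem sm_push [T2Space Y] (hx : ∀ p ∈ e.source, N.x (e p) = up c (M.x p)) {χ f : X → ℝ}
    (hχ : M.Tst χ) (hs : tsupport χ ⊆ e.source) (hf : M.Sm f) :
    N.Sm (push e fun p => χ p * f p) :=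
  (Tst.push (M := amap M (ins ι) (up c 0)) (fun p hp => (hx p hp).trans (ins_add c _).symm)
    ⟨hχ.sm.mul hf, hχ.cs.mul_right⟩ (tsupport_mul_subset_left.trans hs)).sm

theorem gam_comp {ρ : X → ℝ} (hρ : M.Sm ρ) {g : ℝ → ℝ} {g' : ℝ} {p : X}
    (hg : HasDerivAt g g' (ρ p)) :
    M.pre.gam (fun q => g (ρ q)) (fun q => g (ρ q)) p = g' ^ 2 * M.pre.gam ρ ρ p := by
  simp only [gam_apply, D_comp (hρ.diffAt p) hg, Finset.mul_sum]
  exact Finset.sum_congr rfl fun a _ => by ring

/-- the profile of the controlled region -/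
def pr (R s : ℝ) : ℝ := 100 - √(1 + ((s - R) / 2) ^ 2)

theorem pr_sm (R : ℝ) : ContDiff ℝ ∞ (pr R) := by
  unfold pr
  refine contDiff_const.sub (ContDiff.sqrt (by fun_prop) fun s => ?_)
  positivity

theorem pr_deriv (R s : ℝ) : ∃ g', HasDerivAt (pr R) g' s ∧ g' ^ 2 ≤ 1 / 4 := by
  have h0 : 0 < 1 + ((s - R) / 2) ^ 2 := by positivity
  have h1 : HasDerivAt (fun s => 1 + ((s - R) / 2) ^ 2) ((s - R) / 2) s := by
    have := ((((hasDerivAt_id s).sub_const R).div_const 2).pow 2).const_add 1
    refine this.congr_deriv ?_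
    simp
    ring
  refine ⟨_, (h1.sqrt h0.ne').const_sub 100, ?_⟩
  rw [neg_sq, div_pow, mul_pow, Real.sq_sqrt h0.le, div_le_iff₀ (by positivity)]
  nlinarith

theorem pr_pos {R s : ℝ} (h : 0 < pr R s) : |s - R| ≤ 400 := by
  have h1 : √(1 + ((s - R) / 2) ^ 2) < 100 := by unfold pr at h; linarith
  rw [Real.sqrt_lt' (by norm_num)] at h1
  exact abs_le.2 ⟨by nlinarith, by nlinarith⟩

theorem pr_ge {R s : ℝ} (h : |s - R| ≤ 80) : 12 ≤ pr R s := by
  have h1 : √(1 + ((s - R) / 2) ^ 2) ≤ 88 := by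
    rw [Real.sqrt_le_left (by norm_num)]
    have := abs_le.1 h
    nlinarith
  unfold pr
  linarith

end RN

open RN in
theorem rneck (hC : CloseInjStmt) (hN : NeckStmt) : RNeckStmt := by
  intro d ι _ _ X _ _ _ _ _ M hd hinj hF ρ hρ hg hc R
  have hρc := hρ.continuous
  have hab : Continuous fun p => |ρ p - R| := by fun_prop
  have hK : ∀ r : ℝ, IsCompact {p | |ρ p - R| ≤ r} := fun r =>
    (hc (R + r)).of_isClosed_subset (isClosed_le hab continuous_const) fun p hp => by
      have := (abs_le.1 (show |ρ p - R| ≤ r from hp)).2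
      change ρ p ≤ R + r
      linarith
  obtain ⟨Y, _, _, _, _, _, _, N, e, c, FY, hNi, hKe, hx, hFY, hE⟩ :=
    hC d ι X M hinj (fun _ => 1) _ (1 / 200) continuous_const hF (hK 400) (by norm_num)
  obtain ⟨χ, hχ, hχs, hχ01, hχ1⟩ := M.exists_bump (hK 400) e.open_source hKe
  have hev : ∀ (f : X → ℝ) p, |ρ p - R| ≤ 400 →
      f =ᶠ[𝓝 p] fun q => push e (fun p => χ p * f p) (e q) := by
    intro f p hp
    filter_upwards [e.open_source.mem_nhds (hKe hp), eventually_nhdsSet_iff_forall.1 hχ1 p hp]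
      with q h1 h2
    rw [push_apply _ h1, h2, one_mul]
  have hval : ∀ (f : X → ℝ) p, |ρ p - R| ≤ 400 → push e (fun p => χ p * f p) (e p) = f p :=
    fun f p hp => (hev f p hp).self_of_nhds.symm
  have hgam : ∀ (f : X → ℝ) p, |ρ p - R| ≤ 400 →
      N.pre.gam (push e fun p => χ p * f p) (push e fun p => χ p * f p) (e p) = M.pre.gam f f p :=
    fun f p hp => ((li hx (hKe hp)).gam' (hev f p hp) (hev f p hp)).symm
  set φ : Y → ℝ := push e fun p => χ p * ((ρ p - R) / 40) with hφ
  set ψ : Y → ℝ := push e fun p => χ p * pr R (ρ p) with hψ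
  have hpos : ∀ y, 0 < ψ y → ∃ p, |ρ p - R| ≤ 400 ∧ y = e p := by
    intro y hy
    by_cases h : y ∈ e.target
    · refine ⟨e.symm y, pr_pos ?_, (e.right_inv h).symm⟩
      rw [hψ, push, indicator_of_mem h] at hy
      exact lt_of_not_ge fun h' =>
        absurd hy (not_lt.2 (mul_nonpos_of_nonneg_of_nonpos (hχ01 _).1 h'))
    · rw [hψ, push, indicator_of_notMem h] at hy
      exact absurd hy (lt_irrefl _)
  have hφg : ∀ p, |ρ p - R| ≤ 400 → N.pre.gam φ φ (e p) ≤ (1 / 20) ^ 2 := by
    intro p hp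
    rw [hφ, hgam _ p hp, gam_comp hρ (g := fun s => (s - R) / 40)
      (((hasDerivAt_id _).sub_const R).div_const 40)]
    nlinarith [hg p]
  have hlip : ∀ f, Lip1 M univ f → Lip1 N {y | 0 < ψ y} (push e fun p => χ p * f p) := by
    intro f hf
    refine ⟨sm_push hx hχ hχs hf.1, fun y hy => ?_⟩
    obtain ⟨p, hp, rfl⟩ := hpos y hy
    rw [hgam f p hp]
    exact hf.2 p trivial
  have hψl : Lip1 M univ fun p => pr R (ρ p) := by
    refine ⟨hρ.comp (pr_sm R), fun p _ => ?_⟩
    obtain ⟨g', h1, h2⟩ := pr_deriv R (ρ p)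
    rw [gam_comp hρ h1]
    nlinarith [hg p, gam_self_nonneg (M := M) ρ p, sq_nonneg g']
  obtain ⟨v, F', lo, hi, hv, hF', hlo, hhi, hEF, hb, h2, h2', h3, h3', hsm⟩ :=
    hN d (Option ι) Y N FY hNi hFY hd φ ψ (1 / 20) 40 (1 / 200)
      (sm_push hx hχ hχs ((hρ.sub (sm_const R)).div (sm_const 40) fun _ => by norm_num))
      (by norm_num) (by norm_num) (hlip _ hψl) (by
        intro y hy
        obtain ⟨p, hp, rfl⟩ := hpos y hy
        exact ⟨hφg p hp, by linarith [hE p (hKe hp)]⟩)
  have hφv : ∀ p, |ρ p - R| ≤ 400 → φ (e p) = (ρ p - R) / 40 := fun p hp => hval _ p hp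
  classical
  set u : X → ℝ := fun p => if |ρ p - R| < 390 then v (e p) else if R < ρ p then hi else lo with hu
  have hu0 : ∀ p, |ρ p - R| < 390 → u p = v (e p) := fun p hp => if_pos hp
  have hu1 : ∀ p, R + 120 ≤ ρ p → u p = hi := by
    intro p hp
    by_cases h : |ρ p - R| < 390
    · rw [hu0 p h]
      refine h3 _ ?_
      rw [hφv p (by linarith)]
      linarith
    · simp only [hu, if_neg h]
      exact if_pos (by linarith)
  have hu2 : ∀ p, ρ p ≤ R - 120 → u p = lo := by
    intro p hp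
    by_cases h : |ρ p - R| < 390
    · rw [hu0 p h]
      refine h3' _ ?_
      rw [hφv p (by linarith)]
      linarith
    · simp only [hu, if_neg h]
      exact if_neg (by linarith)
  have huv : ∀ p, |ρ p - R| < 390 → u =ᶠ[𝓝 p] fun q => v (e q) := fun p hp => by
    filter_upwards [(isOpen_lt hab continuous_const).mem_nhds hp] with q hq
    exact hu0 q hq
  have hus : M.Sm u := by
    refine SmOn.sm fun p _ => ?_
    by_cases h : |ρ p - R| < 390
    · exact ((li hx (hKe (show |ρ p - R| ≤ 400 by linarith))).contDiffAt hv).congr_of_eventuallyEq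
        (symm_eventuallyEq (M.mem p) (huv p h))
    · rcases le_abs.1 (not_lt.1 h) with h | h
      · have h4 : u =ᶠ[𝓝 p] fun _ => hi := by
          filter_upwards [(isOpen_lt continuous_const hρc).mem_nhds
            (show R + 120 < ρ p by linarith)] with q hq
          exact hu1 q (le_of_lt hq)
        exact (contDiffAt_const (c := hi)).congr_of_eventuallyEq (symm_eventuallyEq (M.mem p) h4)
      · have h4 : u =ᶠ[𝓝 p] fun _ => lo := by
          filter_upwards [(isOpen_lt hρc continuous_const).mem_nhds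
            (show ρ p < R - 120 by linarith)] with q hq
          exact hu2 q (le_of_lt hq)
        exact (contDiffAt_const (c := lo)).congr_of_eventuallyEq (symm_eventuallyEq (M.mem p) h4)
  obtain ⟨χ', hχ', hχs', -, hχ1'⟩ := M.exists_bump (hK 360) (isOpen_lt hab (continuous_const (y := (400 : ℝ))))
    fun p hp => by
      have : |ρ p - R| ≤ 360 := hp
      change |ρ p - R| < 400
      linarith
  refine ⟨u, fun p => χ' p * F' (e p), lo, hi, hus, ?_, hlo, hhi, ?_, ?_, ?_, hu1, hu2, ?_⟩
  · exact SmOn.smul_sm (f := fun p => F' (e p)) (U := e.source)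
      (fun p hp => (li hx hp).contDiffAt hF') hχ'.sm
      (hχs'.trans fun p hp => hKe (show |ρ p - R| ≤ 400 from le_of_lt hp))
  · intro p hp
    have h400 : |ρ p - R| ≤ 400 := by linarith
    have h5 : (fun p => χ' p * F' (e p)) =ᶠ[𝓝 p] fun q => F' (e q) := by
      filter_upwards [eventually_nhdsSet_iff_forall.1 hχ1' p (show |ρ p - R| ≤ 360 by linarith)]
        with q hq
      rw [hq, one_mul]
    have h6 := (li_graph hx (hKe h400) hus hv (huv p (by linarith))).EF' (F' := F') hF' h5
    rw [graph_pre, graph_pre] at h6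
    rw [h6]
    linarith [hEF _ (hφg p h400), hE p (hKe h400)]
  · intro p hp
    have : p ∉ tsupport χ' := fun h => absurd (hχs' h) (not_lt.2 hp)
    simp only [image_eq_zero_of_notMem_tsupport this, zero_mul]
  · intro p
    simp only [hu]
    split_ifs
    · exact hb _
    · exact ⟨by linarith, le_rfl⟩
    · exact ⟨le_rfl, by linarith⟩
  · intro f hf s hs hsc p hp q hq
    have h80 : ∀ p ∈ s, |ρ p - R| ≤ 80 := by
      intro p hp
      have h7 : |u p| ≤ 40 := hs hp
      obtain ⟨h8, h9⟩ := abs_le.1 h7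
      by_cases h : |ρ p - R| < 390
      · rw [hu0 p h] at h8 h9
        have h10 := hφv p (by linarith)
        refine abs_le.2 ⟨not_lt.1 fun h' => ?_, not_lt.1 fun h' => ?_⟩
        · linarith [h2' (e p) (by rw [h10]; linarith)]
        · linarith [h2 (e p) (by rw [h10]; linarith)]
      · rcases le_abs.1 (not_lt.1 h) with h | h
        · linarith [hu1 p (by linarith)]
        · linarith [hu2 p (by linarith)]
    have h400 : ∀ p ∈ s, |ρ p - R| ≤ 400 := fun p hp => by linarith [h80 p hp]
    have h11 := hsm _ (hlip f hf) (e '' s) (by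
      rintro _ ⟨p, hp, rfl⟩
      refine ⟨?_, ?_⟩
      · change |v (e p)| ≤ 40
        rw [← hu0 p (by linarith [h80 p hp])]
        exact hs hp
      · change 12 ≤ ψ (e p)
        rw [hψ, hval _ p (h400 p hp)]
        exact pr_ge (h80 p hp)) (hsc.image e (e.continuousOn.mono fun p hp => hKe (h400 p hp)))
      _ (mem_image_of_mem e hp) _ (mem_image_of_mem e hq)
    rwa [hval f p (h400 p hp), hval f q (h400 q hq)] at h11

end Crest.Agent.N228.N3

end
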