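import Crest.Agent.N228.N3.Defs
import Crest.Agent.N228.Gr.Ims

/-!
# Row 228, dimension three: all radial necks at once
-/

set_option autoImplicit false
set_option linter.unusedSectionVars false
open MeasureTheory Set Filter Topology Function
open scoped ContDiff Convolution NNReal

noncomputable section

namespace Crest.Agent.N228.N3
open Crest.Agent.N222

namespace Rad

/-- mollification of a Lipschitz function on the line -/
theorem moll {F : ℝ → ℝ} {K : ℝ≥0} (hF : LipschitzWith K F) {a : ℝ} (ha : 0 < a) :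
    ∃ G : ℝ → ℝ, ContDiff ℝ ∞ G ∧ LipschitzWith K G ∧
      ∀ y, (∀ x ∈ Metric.ball y a, F x = F y) → G y = F y := by
  let φ : ContDiffBump (0 : ℝ) := ⟨a / 2, a, half_pos ha, half_lt_self ha⟩
  have hc := hF.continuous
  refine ⟨φ.normed volume ⋆[ContinuousLinearMap.lsmul ℝ ℝ, volume] F,
    φ.hasCompactSupport_normed.contDiff_convolution_left _ φ.contDiff_normed hc.locallyIntegrable,
    LipschitzWith.of_dist_le_mul fun x y => ?_, fun y hy => φ.normed_convolution_eq_right hy⟩
  have hi : ∀ z : ℝ, Integrable fun t => φ.normed volume t * F (z - t) := fun z =>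
    (φ.continuous_normed.mul (hc.comp (continuous_const.sub
      continuous_id))).integrable_of_hasCompactSupport φ.hasCompactSupport_normed.mul_right
  simp only [convolution_def, ContinuousLinearMap.lsmul_apply, smul_eq_mul]
  rw [dist_eq_norm, ← integral_sub (hi x) (hi y)]
  refine (norm_integral_le_of_norm_le (φ.integrable_normed.mul_const (K * dist x y))
    (Eventually.of_forall fun t => ?_)).trans ?_
  · rw [← mul_sub, norm_mul, Real.norm_of_nonneg (φ.nonneg_normed t)]
    refine mul_le_mul_of_nonneg_left ?_ (φ.nonneg_normed t)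
    have := hF.dist_le_mul (x - t) (y - t)
    rwa [dist_sub_right, dist_eq_norm] at this
  · rw [integral_mul_const, φ.integral_normed, one_mul]

/-- a slow cut-off around a subset of the line -/
theorem exists_theta (A : Set ℝ) : ∃ Θ : ℝ → ℝ, ContDiff ℝ ∞ Θ ∧ (∀ s, |deriv Θ s| ≤ 1 / 210) ∧
    (∀ s, Metric.infDist s A < 125 → Θ s = 0) ∧ ∀ s, 345 < Metric.infDist s A → Θ s = 1 := by
  have h1 : LipschitzWith (⟨1 / 210, by norm_num⟩ : ℝ≥0)
      fun s => (Metric.infDist s A - 130) / 210 := by
    refine LipschitzWith.of_dist_le_mul fun x y => ?_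
    have := (Metric.lipschitz_infDist_pt A).dist_le_mul x y
    rw [Real.dist_eq] at this ⊢
    rw [← sub_div, sub_sub_sub_cancel_right, abs_div, abs_of_pos (by norm_num : (0 : ℝ) < 210)]
    show _ ≤ 1 / 210 * _
    simp only [NNReal.coe_one, one_mul] at this
    linarith
  obtain ⟨Θ, h2, h3, h4⟩ := moll ((h1.min_const 1).max_const 0) (a := 5) (by norm_num)
  have h5 : ∀ s x, x ∈ Metric.ball s 5 → |Metric.infDist x A - Metric.infDist s A| < 5 :=
    fun s x hx => by
      have := (Metric.lipschitz_infDist_pt A).dist_le_mul x s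
      rw [Real.dist_eq, NNReal.coe_one, one_mul] at this
      exact this.trans_lt hx
  have h0 : ∀ x, Metric.infDist x A ≤ 130 → max (min ((Metric.infDist x A - 130) / 210) 1) 0 = 0 :=
    fun x hx => max_eq_right ((min_le_left _ _).trans (by linarith))
  have h1' : ∀ x, 340 ≤ Metric.infDist x A → max (min ((Metric.infDist x A - 130) / 210) 1) 0 = 1 :=
    fun x hx => by rw [min_eq_right (by linarith), max_eq_left zero_le_one]
  refine ⟨Θ, h2, fun s => norm_deriv_le_of_lipschitz h3, fun s hs => ?_, fun s hs => ?_⟩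
  · rw [h4 s fun x hx => ?_, h0 s (by linarith)]
    rw [h0 s (by linarith), h0 x (by linarith [abs_lt.1 (h5 s x hx)])]
  · rw [h4 s fun x hx => ?_, h1' s (by linarith)]
    rw [h1' s (by linarith), h1' x (by linarith [abs_lt.1 (h5 s x hx)])]

variable {d : ℕ} {ι : Type} [Fintype ι] [DecidableEq ι] {X : Type} [TopologicalSpace X]
  [T2Space X] [SecondCountableTopology X] [MeasurableSpace X] [BorelSpace X] {M : Imm d ι X}

/-- the graph over a region where the function is locally constant -/
theorem formOn_const {U V : X → ℝ} (hU : M.Sm U) (h : M.Form V) {O : Set X}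
    (hO : ∀ p ∈ O, ∃ c, U =ᶠ[𝓝 p] fun _ => c) : Gr.FormOn (M.graph U hU) O V := by
  intro z hz hs
  rw [Imm.graph_mu, Imm.integral_gmu hU]
  refine (h z ⟨hz.sm, hz.cs⟩).trans_eq (integral_congr_ae (.of_forall fun p => ?_))
  show Gr.fd M V z p = _
  by_cases hp : p ∈ tsupport z
  · obtain ⟨c, hc⟩ := hO p (hs hp)
    have hl : Gr.LI (M.graph U hU) (M.pad c) id p := ⟨LinearIsometry.id, 0, hc.mono fun q hq =>
      ⟨continuousAt_id, by
        show up c (M.x q) = up (U q) (M.x q) + 0
        rw [hq, add_zero]⟩⟩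
    have h1 : M.vv U p = 1 := by
      simp [Imm.vv, Imm.gam_congr hc hc, Imm.gam_apply, Imm.D_const]
    have h2 := hl.gam z z
    have h3 := hl.scal
    rw [Imm.pad_gam] at h2
    rw [Imm.pad_scal] at h3
    simp only [id] at h2 h3
    simp only [Gr.fd, h1, h2, h3, inv_one, one_mul]
  · simp only [Gr.fd_zero hp, mul_zero]

/-- translation invariance of `E` of a graph -/
theorem EF_shift {U u F F' : X → ℝ} (hU : M.Sm U) (hu : M.Sm u) (hF : M.Sm F') {p : X} {c : ℝ}
    (h : U =ᶠ[𝓝 p] fun q => u q + c) (h' : F =ᶠ[𝓝 p] F') :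
    (M.graph U hU).pre.EF F p = (M.gS u).EF F' p := by
  have hl : Gr.LI (M.graph U hU) (M.graph u hu) id p := ⟨LinearIsometry.id, up (-c) 0,
    h.mono fun q hq => ⟨continuousAt_id, by
      show up (u q) (M.x q) = up (U q) (M.x q) + up (-c) 0
      rw [hq, up_add]
      simp⟩⟩
  rw [← Imm.graph_pre hu]
  exact hl.EF' hF h'

/-- locally finite sums -/
theorem sm_tsum {ρ : X → ℝ} (hρ : Continuous ρ) {R : ℕ → ℝ} (hR : Monotone R)
    (hR' : ∀ s, ∃ n, s < R n) {g : ℕ → X → ℝ} (hg : ∀ k, M.Sm (g k))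
    (h0 : ∀ k p, ρ p ≤ R k → g k p = 0) : M.Sm fun p => ∑' k, g k p := by
  refine Imm.sm_of_local fun p => ?_
  obtain ⟨n, hn⟩ := hR' (ρ p)
  refine ⟨_, Imm.sm_sum (Finset.range n) fun k _ => hg k, ?_⟩
  filter_upwards [(isOpen_lt hρ continuous_const).mem_nhds hn] with q hq
  exact tsum_eq_sum fun k hk => h0 k q (hq.le.trans (hR (not_lt.1 fun h => hk (Finset.mem_range.2 h))))

end Rad

open Rad in
theorem rad (H : RNeckStmt) : RadStmt := by
  intro d ι _ _ X _ _ _ _ _ M hd hM hform ρ hρ hρ4 hρc
  choose u' F' lo' hi' h using H d ι X M hd hM hform ρ hρ hρ4 hρc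
  have hc := hρ.continuous
  let R : ℕ → ℝ := fun k => 1000 * k
  have hR : ∀ {j k : ℕ}, j < k → R j + 1000 ≤ R k := fun {j k} hjk => by
    have : (j : ℝ) + 1 ≤ k := by exact_mod_cast hjk
    simp only [R]; linarith
  have hRs : ∀ k, R (k + 1) = R k + 1000 := fun k => by simp only [R]; push_cast; ring
  have hRm : Monotone R := monotone_nat_of_le_succ fun k => by rw [hRs]; linarith
  have hRu : ∀ s : ℝ, ∃ n, s < R n := fun s => by
    obtain ⟨n, hn⟩ := exists_nat_gt (s / 1000)
    exact ⟨n, by simp only [R]; linarith⟩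
  let u : ℕ → X → ℝ := fun k => u' (R k)
  let F : ℕ → X → ℝ := fun k => F' (R k)
  let lo : ℕ → ℝ := fun k => lo' (R k)
  let hi : ℕ → ℝ := fun k => hi' (R k)
  have hu : ∀ k, M.Sm (u k) := fun k => (h (R k)).1
  have hF : ∀ k, M.Sm (F k) := fun k => (h (R k)).2.1
  have hlo : ∀ k, lo k < -40 := fun k => (h (R k)).2.2.1
  have hhi : ∀ k, 40 < hi k := fun k => (h (R k)).2.2.2.1
  have hE : ∀ k p, |ρ p - R k| < 350 → 24 / 25 ≤ (M.gS (u k)).EF (F k) p :=
    fun k => (h (R k)).2.2.2.2.1
  have hF0 : ∀ k p, 400 ≤ |ρ p - R k| → F k p = 0 := fun k => (h (R k)).2.2.2.2.2.1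
  have hb : ∀ k p, lo k ≤ u k p ∧ u k p ≤ hi k := fun k => (h (R k)).2.2.2.2.2.2.1
  have huh : ∀ k p, R k + 120 ≤ ρ p → u k p = hi k := fun k => (h (R k)).2.2.2.2.2.2.2.1
  have hul : ∀ k p, ρ p ≤ R k - 120 → u k p = lo k := fun k => (h (R k)).2.2.2.2.2.2.2.2.1
  have hsm : ∀ k f, Lip1 M univ f → Small f {p | |u k p| ≤ 40} 11 :=
    fun k => (h (R k)).2.2.2.2.2.2.2.2.2
  clear_value u F lo hi
  clear h
  let U : X → ℝ := fun p => ∑' k, (u k p - lo k)
  let G : X → ℝ := fun p => ∑' k, F k p
  let S : ℕ → ℝ := fun k => ∑ j ∈ Finset.range k, (hi j - lo j)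
  have hU : M.Sm U := sm_tsum hc (R := fun k => R k - 120) (fun j k hjk => by linarith [hRm hjk])
    (fun s => (hRu (s + 120)).imp fun n hn => by linarith) (fun k => (hu k).sub (Imm.sm_const _))
    fun k p hp => by rw [hul k p hp, sub_self]
  have hG : M.Sm G := sm_tsum hc (R := fun k => R k - 400) (fun j k hjk => by linarith [hRm hjk])
    (fun s => (hRu (s + 400)).imp fun n hn => by linarith) hF
    fun k p hp => hF0 k p (le_abs.2 (Or.inr (by linarith)))
  have hUn : ∀ n p, ρ p ≤ R n - 120 → U p = ∑ k ∈ Finset.range n, (u k p - lo k) := fun n p hp =>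
    tsum_eq_sum fun k hk => by
      rw [hul k p (by linarith [hRm (not_lt.1 fun h => hk (Finset.mem_range.2 h))]), sub_self]
  have hSs : ∀ k, S (k + 1) = S k + (hi k - lo k) := fun k => Finset.sum_range_succ _ _
  have hUk : ∀ k p, |ρ p - R k| < 600 → U p = u k p + (S k - lo k) := fun k p hp => by
    obtain ⟨h1, h2⟩ := abs_lt.1 hp
    rw [hUn (k + 1) p (by rw [hRs]; linarith), Finset.sum_range_succ,
      Finset.sum_congr rfl fun j hj => by
        rw [huh j p (by linarith [hR (Finset.mem_range.1 hj)])]]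
    ring
  have hGk : ∀ k p, |ρ p - R k| < 600 → G p = F k p := fun k p hp => by
    obtain ⟨h1, h2⟩ := abs_lt.1 hp
    refine tsum_eq_single k fun j hj => hF0 j p (le_abs.2 ?_)
    rcases lt_or_gt_of_ne hj with h3 | h3
    · exact Or.inl (by linarith [hR h3])
    · exact Or.inr (by linarith [hR h3])
  have hle : ∀ k p, ρ p ≤ R k - 120 → U p ≤ S k := fun k p hp => by
    rw [hUn k p hp]
    exact Finset.sum_le_sum fun j _ => by linarith [(hb j p).2]
  have hge' : ∀ k p, ∑ j ∈ Finset.range k, (u j p - lo j) ≤ U p := fun k p => by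
    obtain ⟨n, hn⟩ := hRu (ρ p + 120)
    rw [hUn (max n k) p (by linarith [hRm (le_max_left n k)])]
    exact Finset.sum_le_sum_of_subset_of_nonneg (Finset.range_mono (le_max_right n k))
      fun j _ _ => by linarith [(hb j p).1]
  have hge : ∀ k p, R k + 120 ≤ ρ p → S (k + 1) ≤ U p := fun k p hp => by
    refine le_trans (le_of_eq (Finset.sum_congr rfl fun j hj => ?_)) (hge' (k + 1) p)
    rw [huh j p (by linarith [hRm (Nat.lt_succ_iff.1 (Finset.mem_range.1 hj))])]
  have hU0 : ∀ p, 0 ≤ U p := fun p => by simpa using hge' 0 p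
  have hS : ∀ k : ℕ, 80 * (k : ℝ) ≤ S k := fun k => by
    induction k with
    | zero => simp [S]
    | succ k ih => rw [hSs]; push_cast; linarith [hlo k, hhi k]
  refine ⟨U, hU, fun k => Nat.casesOn k (-41) fun k => S k - lo k, ?_, fun c => ?_,
    fun p => ?_, fun k => ?_, fun k f hf => ?_⟩
  · -- the form
    obtain ⟨Θ, hΘ, hΘ', hΘ0, hΘ1⟩ := exists_theta (range R)
    have hD : Continuous fun p => Metric.infDist (ρ p) (range R) :=
      (Metric.continuous_infDist_pt _).comp hc
    have hθ : M.Sm fun p => Θ (ρ p) := hρ.comp hΘ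
    have h1 : Gr.FormOn (M.graph U hU) {p | Metric.infDist (ρ p) (range R) < 350}
        fun _ => 24 / 25 := by
      refine Gr.formOn_of_EF (F := G) hG continuous_const fun p hp => ?_
      obtain ⟨_, ⟨k, rfl⟩, hk⟩ := (Metric.infDist_lt_iff (range_nonempty R)).1 hp
      rw [Real.dist_eq] at hk
      have h2 : ∀ᶠ q in 𝓝 p, |ρ q - R k| < 600 :=
        (isOpen_lt (hc.sub continuous_const).abs continuous_const).mem_nhds
          (show |ρ p - R k| < 600 by linarith)
      rw [EF_shift hU (hu k) (hF k) (h2.mono (hUk k)) (h2.mono (hGk k))]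
      exact hE k p hk
    have h2 : Gr.FormOn (M.graph U hU) {p | 120 < Metric.infDist (ρ p) (range R)} fun _ => 1 := by
      refine formOn_const hU hform fun p hp => ?_
      obtain ⟨n, hn⟩ := hRu (ρ p + 120)
      have h3 : ∀ k, ∀ᶠ q in 𝓝 p, u k q = u k p := fun k => by
        have h4 : 120 < |ρ p - R k| :=
          lt_of_lt_of_le hp (Metric.infDist_le_dist_of_mem (mem_range_self k))
        rcases lt_abs.1 h4 with h5 | h5
        · filter_upwards [(isOpen_lt continuous_const hc).mem_nhds
            (show R k + 120 < ρ p by linarith)] with q hq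
          rw [huh k q (le_of_lt hq), huh k p (by linarith)]
        · filter_upwards [(isOpen_lt hc continuous_const).mem_nhds
            (show ρ p < R k - 120 by linarith)] with q hq
          rw [hul k q (le_of_lt hq), hul k p (by linarith)]
      refine ⟨∑ k ∈ Finset.range n, (u k p - lo k), ?_⟩
      filter_upwards [(isOpen_lt hc continuous_const).mem_nhds (show ρ p < R n - 120 by linarith),
        (eventually_all_finset (Finset.range n)).2 fun k _ => h3 k] with q hq hq'
      rw [hUn n q (le_of_lt hq)]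
      exact Finset.sum_congr rfl fun k hk => by rw [hq' k hk]
    have s1 : tsupport (fun p => 1 - Θ (ρ p)) ⊆ {p | Metric.infDist (ρ p) (range R) < 350} := by
      refine (closure_minimal (t := {p | Metric.infDist (ρ p) (range R) ≤ 345}) (fun p hp => ?_)
        (isClosed_le hD continuous_const)).trans fun p hp => ?_
      · by_contra h
        exact hp (by simp only [hΘ1 _ (not_le.1 h), sub_self])
      · exact lt_of_le_of_lt (b := (345 : ℝ)) hp (by norm_num : (345 : ℝ) < 350)
    have s2 : tsupport (fun p => Θ (ρ p)) ⊆ {p | 120 < Metric.infDist (ρ p) (range R)} := by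
      refine (closure_minimal (t := {p | 125 ≤ Metric.infDist (ρ p) (range R)}) (fun p hp => ?_)
        (isClosed_le continuous_const hD)).trans fun p hp => ?_
      · by_contra h
        exact hp (hΘ0 _ (not_le.1 h))
      · exact lt_of_lt_of_le (by norm_num : (120 : ℝ) < 125) hp
    have h3 := Gr.ims_cut (M := M.graph U hU) (θ := fun p => Θ (ρ p)) hθ h1 h2 s1 s2
      continuous_const continuous_const
    have hθc := hθ.continuous
    have hgc : Continuous ((M.graph U hU).pre.gam (fun p => Θ (ρ p)) fun p => Θ (ρ p)) :=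
      (Imm.Sm.gam (M := M.graph U hU) hθ hθ).continuous
    refine Gr.formOn_univ.1 ((Gr.formOn_of_form h3 univ).mono subset_rfl (by fun_prop)
      continuous_const fun p _ => ?_)
    have h4 : (M.graph U hU).pre.gam (fun p => Θ (ρ p)) (fun p => Θ (ρ p)) p ≤
        (1 / 210) ^ 2 * 4 := by
      rw [Imm.graph_pre]
      refine (M.gS_gam_le U _ p).trans ?_
      have h5 : M.pre.gam (fun p => Θ (ρ p)) (fun p => Θ (ρ p)) p =
          deriv Θ (ρ p) ^ 2 * M.pre.gam ρ ρ p := by
        simp only [Imm.gam_apply, Imm.D_comp (hρ.diffAt p)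
          (hΘ.differentiable (by simp) (ρ p)).hasDerivAt, Finset.mul_sum]
        exact Finset.sum_congr rfl fun _ _ => by ring
      rw [h5, ← sq_abs]
      exact mul_le_mul (pow_le_pow_left₀ (abs_nonneg _) (hΘ' _) 2) (hρ4 p)
        (Imm.gam_self_nonneg ρ p) (by positivity)
    have h6 : Real.pi ^ 2 ≤ 4 ^ 2 := pow_le_pow_left₀ Real.pi_pos.le Real.pi_le_four 2
    have h7 := mul_le_mul h6 h4 (Imm.gam_self_nonneg _ p) (by positivity)
    have h8 := Real.cos_sq_add_sin_sq (Real.pi / 2 * Θ (ρ p))
    have h9 := sq_nonneg (Real.sin (Real.pi / 2 * Θ (ρ p)))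
    linarith
  · obtain ⟨k, hk⟩ := exists_nat_gt (c / 80)
    refine (hρc (R k + 120)).of_isClosed_subset (isClosed_le hU.continuous continuous_const)
      fun p (hp : U p ≤ c) => ?_
    by_contra h
    have h1 := hge k p (not_le.1 h).le
    have h2 := hS (k + 1)
    push_cast at h2
    linarith
  · show (-41 : ℝ) + 40 < U p
    linarith [hU0 p]
  · cases k with
    | zero =>
      show (-41 : ℝ) + 80 ≤ S 0 - lo 0
      have := hS 0
      simp only [Nat.cast_zero, mul_zero] at this
      linarith [hlo 0]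
    | succ k =>
      show S k - lo k + 80 ≤ S (k + 1) - lo (k + 1)
      rw [hSs]
      linarith [hhi k, hlo (k + 1)]
  · cases k with
    | zero =>
      intro c hc' _ p hp
      have h1 : |U p - -41| ≤ 40 := hc' hp
      linarith [hU0 p, (abs_le.1 h1).2]
    | succ k =>
      refine (hsm k f hf).mono (fun p (hp : |U p - (S k - lo k)| ≤ 40) => ?_) le_rfl
      obtain ⟨h1, h2⟩ := abs_le.1 hp
      have h3 : R k - 120 < ρ p := not_le.1 fun h => by linarith [hle k p h, hlo k]
      have h4 : ρ p < R k + 120 := not_le.1 fun h => by linarith [hge k p h, hSs k, hhi k]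
      rw [hUk k p (abs_lt.2 ⟨by linarith, by linarith⟩), add_sub_cancel_right] at hp
      exact hp

end Crest.Agent.N228.N3

end
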