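import Crest.Agent.N228.N3.Defs

/-!
# Row 228, dimension three: SEP and CL (helper61, task 651)
-/

set_option autoImplicit false
set_option maxHeartbeats 400000
open Set Filter Topology Function

namespace Crest.Agent.N228.N3

theorem sep : SepStmt := by
  intro Y _ _ Z A B hZ hA hB hAZ hBZ h
  have : CompactSpace Z := isCompact_iff_compactSpace.1 hZ
  have hB' : IsCompact ((↑) ⁻¹' B : Set Z) := (hB.preimage continuous_subtype_val).isCompact
  have hA' : IsCompact ((↑) ⁻¹' A : Set Z) := (hA.preimage continuous_subtype_val).isCompact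
  have key : ∀ a : {a : Z // a.1 ∈ A}, ∃ U : Set Z, IsClopen U ∧ a.1 ∈ U ∧ ∀ p ∈ U, p.1 ∉ B := by
    rintro ⟨a, ha⟩
    have h1 : ((↑) ⁻¹' B : Set Z) ∩ ⋂ s : {s : Set Z // IsClopen s ∧ a ∈ s}, s.1 = ∅ := by
      rw [← connectedComponent_eq_iInter_isClopen, eq_empty_iff_forall_notMem]
      rintro p ⟨hp, hp'⟩
      refine h ((↑) '' connectedComponent a) (by rintro _ ⟨q, -, rfl⟩; exact q.2)
        (isPreconnected_connectedComponent.image _ continuous_subtype_val.continuousOn)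
        ⟨a.1, ⟨a, mem_connectedComponent, rfl⟩, ha⟩ ⟨p.1, ⟨p, hp', rfl⟩, hp⟩
    obtain ⟨t, ht⟩ := hB'.elim_finite_subfamily_closed
      (fun s : {s : Set Z // IsClopen s ∧ a ∈ s} => s.1) (fun s => s.2.1.isClosed) h1
    refine ⟨⋂ i ∈ t, i.1, isClopen_biInter_finset fun i _ => i.2.1,
      mem_iInter₂.2 fun i _ => i.2.2, fun p hp hpB => ?_⟩
    have : p ∈ ((↑) ⁻¹' B : Set Z) ∩ ⋂ i ∈ t, i.1 := ⟨hpB, hp⟩
    rw [ht] at this
    exact this
  choose U hU using key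
  obtain ⟨t, ht⟩ := hA'.elim_finite_subcover U (fun a => (hU a).1.isOpen)
    fun p hp => mem_iUnion.2 ⟨⟨p, hp⟩, (hU ⟨p, hp⟩).2.1⟩
  have hV : IsClopen (⋃ a ∈ t, U a) := isClopen_biUnion_finset fun a _ => (hU a).1
  refine ⟨(↑) '' (⋃ a ∈ t, U a), (↑) '' (⋃ a ∈ t, U a)ᶜ,
    hV.isClosed.isCompact.image continuous_subtype_val,
    hV.compl.isClosed.isCompact.image continuous_subtype_val,
    (disjoint_image_iff Subtype.val_injective).2 disjoint_compl_right, ?_, fun p hp => ?_,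
    fun p hp => ?_⟩
  · rw [← image_union, union_compl_self, image_univ, Subtype.range_coe]
  · exact ⟨⟨p, hAZ hp⟩, ht hp, rfl⟩
  · refine ⟨⟨p, hBZ hp⟩, fun hq => ?_, rfl⟩
    obtain ⟨a, -, ha⟩ := mem_iUnion₂.1 hq
    exact (hU a).2.2 _ ha hp

theorem cl (hS : SepStmt) : CLStmt := by
  intro Y _ _ c f a b hc hf hab hK ⟨p, hp, hpa⟩ ⟨q, hq, hqb⟩
  by_contra hn
  set K := c ∩ {p | a ≤ f p ∧ f p ≤ b} with hKdef
  obtain ⟨K1, K2, h1, h2, hd, hu, hA, hB⟩ := hS Y K (K ∩ {p | f p = a}) (K ∩ {p | f p = b}) hK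
    (hK.isClosed.inter (isClosed_eq hf continuous_const))
    (hK.isClosed.inter (isClosed_eq hf continuous_const)) inter_subset_left inter_subset_left
    fun c' hc' h1 ⟨x, hx, hxa⟩ ⟨y, hy, hyb⟩ => hn ⟨c', hc', h1, x, hx, y, hy, hxa.2, hyb.2⟩
  have hK1 : K1 ⊆ K := hu ▸ subset_union_left
  have hK2 : K2 ⊆ K := hu ▸ subset_union_right
  obtain ⟨x, -, hx1, hx2⟩ := isPreconnected_closed_iff.1 hc (K1 ∪ {p | f p ≤ a}) (K2 ∪ {p | b ≤ f p})
    (h1.isClosed.union (isClosed_le hf continuous_const))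
    (h2.isClosed.union (isClosed_le continuous_const hf))
    (fun x hx => by
      rcases le_total (f x) a with h | h
      · exact Or.inl (Or.inr h)
      rcases le_total b (f x) with h' | h'
      · exact Or.inr (Or.inr h')
      have : x ∈ K1 ∪ K2 := hu ▸ ⟨hx, h, h'⟩
      exact this.imp Or.inl Or.inl)
    ⟨p, hp, Or.inr hpa⟩ ⟨q, hq, Or.inr hqb⟩
  rcases hx1 with hx1 | hx1 <;> rcases hx2 with hx2 | hx2
  · exact disjoint_left.1 hd hx1 hx2
  · exact disjoint_left.1 hd hx1 (hB ⟨hK1 hx1, le_antisymm (hK1 hx1).2.2 hx2⟩)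
  · exact disjoint_left.1 hd (hA ⟨hK2 hx2, le_antisymm hx1 (hK2 hx2).2.1⟩) hx2
  · exact absurd (le_trans hx2 hx1 : b ≤ a) (not_le.2 hab)

variable {Y : Type} [TopologicalSpace Y] [T2Space Y]

/-- a preconnected set cannot cross a slab whose components are small for `f` (compact slab) -/
theorem cl_bound' (hCL : CLStmt) {c A : Set Y} {f : Y → ℝ} {a b D : ℝ} (hc : IsPreconnected c)
    (hf : Continuous f) (hK : IsCompact (c ∩ {p | a ≤ f p ∧ f p ≤ b})) (hA : Small f A D)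
    (hcA : c ∩ {p | a ≤ f p ∧ f p ≤ b} ⊆ A) (hab : a < b) (hD : D < b - a)
    (hp : ∃ p ∈ c, f p ≤ a) : ∀ q ∈ c, f q < b := by
  intro q hq
  by_contra hn
  obtain ⟨c', h1, h2, x, hx, y, hy, hxa, hyb⟩ := hCL Y c f a b hc hf hab hK hp ⟨q, hq, not_lt.1 hn⟩
  have := hA c' (h1.trans hcA) h2 y hy x hx
  linarith

/-- the same for a closed set in a compact space -/
theorem cl_bound [CompactSpace Y] (hCL : CLStmt) {c A : Set Y} {f : Y → ℝ} {a b D : ℝ}
    (hcl : IsClosed c) (hc : IsPreconnected c) (hf : Continuous f) (hA : Small f A D)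
    (hcA : c ∩ {p | a ≤ f p ∧ f p ≤ b} ⊆ A) (hab : a < b) (hD : D < b - a)
    (hp : ∃ p ∈ c, f p ≤ a) : ∀ q ∈ c, f q < b :=
  cl_bound' hCL hc hf (hcl.inter ((isClosed_le continuous_const hf).inter
    (isClosed_le hf continuous_const))).isCompact hA hcA hab hD hp

/-- downward form of `cl_bound'` -/
theorem cl_bound_lo' (hCL : CLStmt) {c A : Set Y} {f : Y → ℝ} {a b D : ℝ} (hc : IsPreconnected c)
    (hf : Continuous f) (hK : IsCompact (c ∩ {p | a ≤ f p ∧ f p ≤ b})) (hA : Small f A D)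
    (hcA : c ∩ {p | a ≤ f p ∧ f p ≤ b} ⊆ A) (hab : a < b) (hD : D < b - a)
    (hp : ∃ p ∈ c, b ≤ f p) : ∀ q ∈ c, a < f q := by
  intro q hq
  by_contra hn
  obtain ⟨p, hp, hb⟩ := hp
  exact absurd (cl_bound' hCL hc hf hK hA hcA hab hD ⟨q, hq, not_lt.1 hn⟩ p hp) (not_lt.2 hb)

/-- downward form of `cl_bound` -/
theorem cl_bound_lo [CompactSpace Y] (hCL : CLStmt) {c A : Set Y} {f : Y → ℝ} {a b D : ℝ}
    (hcl : IsClosed c) (hc : IsPreconnected c) (hf : Continuous f) (hA : Small f A D)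
    (hcA : c ∩ {p | a ≤ f p ∧ f p ≤ b} ⊆ A) (hab : a < b) (hD : D < b - a)
    (hp : ∃ p ∈ c, b ≤ f p) : ∀ q ∈ c, a < f q :=
  cl_bound_lo' hCL hc hf (hcl.inter ((isClosed_le continuous_const hf).inter
    (isClosed_le hf continuous_const))).isCompact hA hcA hab hD hp

end Crest.Agent.N228.N3
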