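import Crest.Agent.N228.N3.Defs
import Crest.Agent.N222.F.Bump

/-!
# Row 228, dimension three: TREE (helper31)
-/

set_option autoImplicit false
open MeasureTheory Set Filter Topology Function
open scoped ContDiff

noncomputable section

namespace Crest.Agent.N228.N3
open Crest.Agent.N222

namespace Tr

/-- the last exit from `closure P` -/
theorem last {X : Type} [TopologicalSpace X] {P : Set X} (hP : IsOpen P) {γ : ℝ → X}
    (hγ : Continuous γ) (h0 : γ 0 ∈ P) (h1 : γ 1 ∉ closure P) :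
    ∃ s ∈ Icc (0 : ℝ) 1, γ s ∈ closure P ∧ ∀ t ∈ Icc s 1, γ t ∉ P := by
  obtain ⟨s, hs, hmax⟩ := (isCompact_Icc.inter_right (isClosed_closure.preimage hγ) :
    IsCompact (Icc (0 : ℝ) 1 ∩ γ ⁻¹' closure P)).exists_isGreatest
      ⟨0, ⟨le_rfl, zero_le_one⟩, subset_closure h0⟩
  refine ⟨s, hs.1, hs.2, fun t ht hP' => ?_⟩
  have e : t = s := le_antisymm (hmax ⟨⟨hs.1.1.trans ht.1, ht.2⟩, subset_closure hP'⟩) ht.1
  subst e
  have h2 : t < 1 := lt_of_le_of_ne ht.2 fun e => h1 (e ▸ hs.2)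
  obtain ⟨u, hu, h3, h4⟩ := ((hγ.continuousAt.eventually_mem (hP.mem_nhds hP')).and
    (eventually_lt_nhds h2)).exists_gt
  exact (hmax ⟨⟨hs.1.1.trans hu.le, h4.le⟩, subset_closure h3⟩).not_gt hu

theorem const {X : Type} [TopologicalSpace X] {c : Set X} (hc : IsPreconnected c) {f : X → ℝ}
    (hf : ContinuousOn f c) (h : ∀ p ∈ c, Circle.exp (f p) = 1) {p q : X} (hp : p ∈ c)
    (hq : q ∈ c) : f p = f q :=
  Circle.isCoveringMap_exp.constOn_of_comp hc hf (fun a ha b hb => (h a ha).trans (h b hb).symm)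
    hp hq

theorem sm_of_local {d : ℕ} {ι : Type} [Fintype ι] [DecidableEq ι] {X : Type} [TopologicalSpace X]
    {M : Imm d ι X} {f : X → ℂ} (h : ∀ p, ∃ g, M.Sm g ∧ f =ᶠ[𝓝 p] g) : M.Sm f :=
  Imm.SmOn.sm fun p _ =>
    let ⟨_, hg, e⟩ := h p
    (hg.smOn univ p trivial).congr_of_eventuallyEq (e.comp_tendsto ((M.ch p).tendsto_symm (M.mem p)))

end Tr

open Tr

theorem tree (hS : SepStmt) : TreeStmt := by
  classical
  intro d ι _ _ X _ _ _ _ _ M hX O W Z hW hZ hWZ hWO hL x γ γ' hγ hγ' h0 h0' h1 hO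
  have := M.locallyConnected
  set P := connectedComponentIn W x with hPdef
  have hP : IsOpen P := hW.connectedComponentIn
  have hPc : IsPreconnected P := isPreconnected_connectedComponentIn
  have hPW : P ⊆ W := connectedComponentIn_subset W x
  have hxP : x ∈ P := mem_connectedComponentIn (connectedComponentIn_nonempty_iff.1 ⟨_, h0⟩)
  have hcl : ∀ q ∈ closure P, q ∉ P → q ∈ Z := fun q hq hqP => by
    refine (hWZ (closure_mono hPW hq)).resolve_left fun hqW => hqP ?_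
    exact (hPc.subset_closure (subset_insert q P) (insert_subset hq subset_closure)
      ).subset_connectedComponentIn (mem_insert_of_mem _ hxP) (insert_subset hqW hPW)
        (mem_insert _ _)
  by_cases h2 : γ 1 ∈ closure P
  · exact ⟨1, ⟨zero_le_one, le_rfl⟩, 1, ⟨zero_le_one, le_rfl⟩, h2, h1 ▸ h2, Or.inl h1⟩
  obtain ⟨s, hs, hy, hs'⟩ := last hP hγ h0 h2
  obtain ⟨t, ht, hy', ht'⟩ := last hP hγ' h0' (h1 ▸ h2)
  refine ⟨s, hs, t, ht, hy, hy', Or.inr ?_⟩
  by_contra hc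
  have hyP := hs' s ⟨le_rfl, hs.2⟩
  have hyP' := ht' t ⟨le_rfl, ht.2⟩
  obtain ⟨Z1, Z2, c1, c2, hd, hu, a1, a2⟩ := hS X Z {γ s} {γ' t} hZ.isCompact isClosed_singleton
    isClosed_singleton (singleton_subset_iff.2 (hcl _ hy hyP))
    (singleton_subset_iff.2 (hcl _ hy' hyP')) (by
      rintro c hcZ hcc ⟨_, h3, rfl⟩ ⟨_, h4, rfl⟩
      exact hc ⟨c, hcZ, hcc, h3, h4⟩)
  obtain ⟨φ, hφ, hs2, -, hφ1⟩ := M.exists_bump c1 c2.isClosed.isOpen_compl
    (disjoint_left.1 hd)
  have n1 : ∀ p ∈ Z1, ∀ᶠ q in 𝓝 p, φ q = 1 := fun p hp => hφ1.filter_mono (nhds_le_nhdsSet hp)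
  have n2 : ∀ p ∈ Z2, ∀ᶠ q in 𝓝 p, φ q = 0 := fun p hp =>
    notMem_tsupport_iff_eventuallyEq.1 fun h => hs2 h hp
  set z : X → Circle := fun p => if p ∈ P then Circle.exp (2 * Real.pi * φ p) else 1 with hz
  have hsm : SmC M z := by
    refine sm_of_local fun p => ?_
    by_cases hp : p ∈ P
    · refine ⟨fun q => Complex.exp ((2 * Real.pi * φ q : ℝ) * Complex.I), hφ.sm.comp
        (g := fun a : ℝ => Complex.exp ((2 * Real.pi * a : ℝ) * Complex.I)) ?_, ?_⟩
      · exact ((Complex.ofRealCLM.contDiff.comp (contDiff_const.mul contDiff_id)).mul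
          contDiff_const).cexp
      · filter_upwards [hP.mem_nhds hp] with q hq
        simp only [hz, if_pos hq, Circle.coe_exp]
    refine ⟨fun _ => 1, Imm.sm_const 1, ?_⟩
    by_cases hp' : p ∈ closure P
    · rcases hu.ge (hcl p hp' hp) with h3 | h3
      · filter_upwards [n1 p h3] with q hq
        simp [hz, hq]
      · filter_upwards [n2 p h3] with q hq
        simp [hz, hq]
    · filter_upwards [isClosed_closure.isOpen_compl.mem_nhds hp'] with q hq
      simp only [hz, if_neg fun h => hq (subset_closure h), Circle.coe_one]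
  obtain ⟨g, hg, hzg⟩ := hL z hsm
  have e1 : φ (γ s) = 1 := (n1 _ (a1 rfl)).self_of_nhds
  have e2 : φ (γ' t) = 0 := (n2 _ (a2 rfl)).self_of_nhds
  have hPO : closure P ⊆ O := (closure_mono hPW).trans hWO
  have hQ : insert (γ s) (insert (γ' t) P) ⊆ closure P :=
    insert_subset hy (insert_subset hy' subset_closure)
  have k1 : g (γ s) - 2 * Real.pi * φ (γ s) = g (γ' t) - 2 * Real.pi * φ (γ' t) := by
    refine const (f := fun p => g p - 2 * Real.pi * φ p)
      (hPc.subset_closure ((subset_insert _ _).trans (subset_insert _ _)) hQ)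
      ((hg.mono (hQ.trans hPO)).sub (continuous_const.mul hφ.sm.continuous).continuousOn)
      (fun p hp => ?_) (mem_insert _ _) (mem_insert_of_mem _ (mem_insert _ _))
    rw [Circle.exp_sub, ← hzg p (hPO (hQ hp))]
    rcases hp with rfl | rfl | hp
    · simp [hz, hyP, e1]
    · simp [hz, hyP', e2]
    · simp [hz, hp]
  have k2 : ∀ {γ : ℝ → X} {s : ℝ}, Continuous γ → s ∈ Icc (0 : ℝ) 1 → (∀ t ∈ Icc s 1, γ t ∉ P) →
      (∀ t ∈ Icc (0 : ℝ) 1, γ t ∈ O) → g (γ s) = g (γ 1) := fun {γ s} hγ hs h3 h4 => by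
    have h5 : ∀ t ∈ Icc s 1, γ t ∈ O := fun t ht => h4 t ⟨hs.1.trans ht.1, ht.2⟩
    refine const (f := fun t => g (γ t)) isPreconnected_Icc (hg.comp hγ.continuousOn h5)
      (fun t ht => ?_) ⟨le_rfl, hs.2⟩ ⟨hs.2, le_rfl⟩
    rw [← hzg _ (h5 t ht)]
    simp only [hz, if_neg (h3 t ht)]
  rw [e1, e2, k2 hγ hs hs' fun t ht => (hO t ht).1, k2 hγ' ht ht' fun t ht => (hO t ht).2, h1] at k1
  linarith [Real.pi_pos]

end Crest.Agent.N228.N3

end
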