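import Crest.Agent.N228.N3.Main
import Crest.Agent.N228.N3.Neck
import Crest.Agent.N228.N3.NkLim
import Crest.Agent.N228.N3.Circ
import Crest.Agent.N228.N3.Close
import Crest.Agent.N228.N3.Cover
import Crest.Agent.N228.N3.Dist
import Crest.Agent.N228.N3.FG
import Crest.Agent.N228.N3.Piece
import Crest.Agent.N228.N3.PieceX
import Crest.Agent.N228.N3.Prof
import Crest.Agent.N228.N3.Rad
import Crest.Agent.N228.N3.RNeck
import Crest.Agent.N228.N3.Cuts
import Crest.Agent.N228.N3.Sep
import Crest.Agent.N228.N3.Tree
import Crest.Agent.N228.O.App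

/-! # Row 228, dimension three: the unconditional statement -/

set_option autoImplicit false

namespace Crest.Agent.N228.N3

theorem neck' : NeckStmt := neck prof nkLim

theorem n3 : N3Stmt :=
  n3_of app (rad (rneck closeInj neck'))
    (pieceX closeInj
      (piece fg (cuts (cut circ neck') (cl sep) smin) dist neck' (tree sep) (cl sep) smin))
    (cl sep) (cover sep) smin

end Crest.Agent.N228.N3
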