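import Crest.Agent.N228.O.Defs
import Crest.Agent.N228.W.Defs

/-!
# Row 228, dimension three (helper99): FROZEN definitions and leaf statements

Chain: `n3 : N3Stmt` from `App, Rad, PieceX, CL, Cover, Smin`;
`Rad` from `RNeck` from `CloseInj, Neck`; `PieceX` from `CloseInj, Piece`;
`Piece` from `FG, Cuts, Dist, Neck, Tree, CL, Smin`; `Cuts` from `Cut, CL, Smin`;
`Cut` from `Circ, Neck`; `Neck` from `Prof, NkLim`; `CL, Tree, Cover` from `Sep`.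
Diameters are measured by the oscillation of smooth functions with gradient at most one.
-/

set_option autoImplicit false
open MeasureTheory Set Filter Topology Function
open scoped ContDiff

noncomputable section

namespace Crest.Agent.N228.N3
open Crest.Agent.N222

variable {d : ℕ} {ι : Type} [Fintype ι] [DecidableEq ι] {Y : Type} [TopologicalSpace Y]

/-- `f` oscillates at most `D` on the preconnected subsets of `Z` -/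
def Small (f : Y → ℝ) (Z : Set Y) (D : ℝ) : Prop :=
  ∀ c ⊆ Z, IsPreconnected c → ∀ p ∈ c, ∀ q ∈ c, f p - f q ≤ D

/-- smooth, with gradient at most one on `O` -/
def Lip1 (N : Imm d ι Y) (O : Set Y) (f : Y → ℝ) : Prop :=
  N.Sm f ∧ ∀ p ∈ O, N.pre.gam f f p ≤ 1

/-- the components of `Z` are small, as seen from the region `0 < ψ` -/
def SmallA (N : Imm d ι Y) (ψ : Y → ℝ) (Z : Set Y) : Prop :=
  ∀ f, Lip1 N {p | 0 < ψ p} f → Small f Z 11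

/-- a circle valued map lifts on `O` -/
def Lifts (z : Y → Circle) (O : Set Y) : Prop :=
  ∃ g : Y → ℝ, ContinuousOn g O ∧ ∀ p ∈ O, z p = Circle.exp (g p)

/-- smooth circle valued maps -/
def SmC (N : Imm d ι Y) (z : Y → Circle) : Prop := N.Sm fun p => (z p : ℂ)

/-- a later state: same charts, embedded, larger metric, `E` drops at most by `ε` -/
structure Later {κ : Type} [Fintype κ] [DecidableEq κ] (M : Imm d ι Y) (F : Y → ℝ) (N : Imm d κ Y)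
    (F' : Y → ℝ) (ε : ℝ) : Prop where
  ch : N.ch = M.ch
  inj : Injective N.x
  sm : M.Sm F'
  gam : ∀ f, M.Sm f → ∀ p, N.pre.gam f f p ≤ M.pre.gam f f p
  E : ∀ p, M.pre.EF F p - ε ≤ N.pre.EF F' p

/-- existence of a later state -/
def ExL (M : Imm d ι Y) (F : Y → ℝ) (ε : ℝ)
    (Q : ∀ (κ : Type) [Fintype κ] [DecidableEq κ], Imm d κ Y → Prop) : Prop :=
  ∃ (κ : Type) (_ : Fintype κ) (_ : DecidableEq κ) (N : Imm d κ Y) (F' : Y → ℝ),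
    Later M F N F' ε ∧ Q κ N

/-! ### topology -/

/-- SEP: closed sets which are not joined by a connected set are separated -/
def SepStmt : Prop := ∀ (Y : Type) [TopologicalSpace Y] [T2Space Y] (Z A B : Set Y),
  IsCompact Z → IsClosed A → IsClosed B → A ⊆ Z → B ⊆ Z →
  (∀ c ⊆ Z, IsPreconnected c → (c ∩ A).Nonempty → ¬ (c ∩ B).Nonempty) →
  ∃ Z1 Z2 : Set Y, IsCompact Z1 ∧ IsCompact Z2 ∧ Disjoint Z1 Z2 ∧ Z1 ∪ Z2 = Z ∧ A ⊆ Z1 ∧ B ⊆ Z2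

/-- CL: boundary bumping -/
def CLStmt : Prop := ∀ (Y : Type) [TopologicalSpace Y] [T2Space Y] (c : Set Y) (f : Y → ℝ)
  (a b : ℝ), IsPreconnected c → Continuous f → a < b → IsCompact (c ∩ {p | a ≤ f p ∧ f p ≤ b}) →
  (∃ p ∈ c, f p ≤ a) → (∃ p ∈ c, b ≤ f p) →
  ∃ c' ⊆ c ∩ {p | a ≤ f p ∧ f p ≤ b}, IsPreconnected c' ∧ ∃ p ∈ c', ∃ q ∈ c', f p = a ∧ f q = b

/-- COVER: small components of a closed set and of its complement -/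
def CoverStmt : Prop := ∀ (X : Type) [MetricSpace X] [ProperSpace X] [LocallyConnectedSpace X]
  (Z : Set X) (C : ℝ), IsClosed Z →
  (∀ c ⊆ Z, IsPreconnected c → ∀ p ∈ c, ∀ q ∈ c, dist p q ≤ C) →
  (∀ c ⊆ Zᶜ, IsPreconnected c → ∀ p ∈ c, ∀ q ∈ c, dist p q ≤ C) → Cov X 1 (C + 1)

/-- TREE: if all circle maps lift on `O`, two paths in `O` from a component of `W` to a common
point leave it through the same component of `Z` -/
def TreeStmt : Prop := AllImm fun _ _ _ _ X _ _ _ _ _ M => CompactSpace X →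
  ∀ (O W Z : Set X), IsOpen W → IsClosed Z → closure W ⊆ W ∪ Z → closure W ⊆ O →
  (∀ z, SmC M z → Lifts z O) → ∀ (x : X) (γ γ' : ℝ → X), Continuous γ → Continuous γ' →
  γ 0 ∈ connectedComponentIn W x → γ' 0 ∈ connectedComponentIn W x → γ 1 = γ' 1 →
  (∀ s ∈ Icc (0 : ℝ) 1, γ s ∈ O ∧ γ' s ∈ O) →
  ∃ s ∈ Icc (0 : ℝ) 1, ∃ s' ∈ Icc (0 : ℝ) 1, γ s ∈ closure (connectedComponentIn W x) ∧
    γ' s' ∈ closure (connectedComponentIn W x) ∧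
    (γ s = γ' s' ∨ ∃ c ⊆ Z, IsPreconnected c ∧ γ s ∈ c ∧ γ' s' ∈ c)

/-- FG: the circle maps are finitely generated modulo lifts -/
def FGStmt : Prop := AllImm fun _ _ _ _ X _ _ _ _ _ M => CompactSpace X →
  ∃ zs : List (X → Circle), (∀ z ∈ zs, SmC M z) ∧
    ∀ (O : Set X) z, SmC M z → (∀ w ∈ zs, Lifts w O) → Lifts z O

/-! ### calculus -/

/-- PROF: the profile on the band `[-1, 1]`, of cost `12` and arbitrary height -/
def ProfStmt : Prop := ∀ L : ℝ, ∃ (H : ℝ → ℝ) (K : ℝ), ContDiff ℝ ∞ H ∧ L ≤ K ∧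
  (∀ t, 1 ≤ t → H t = K) ∧ (∀ t, t ≤ -1 → H t = -K) ∧ (∀ t, |H t| ≤ K) ∧
  ∀ t, 2 * |deriv H t| ≤ H t ^ 2 + 12

/-- SMIN: smooth minimum and smooth absolute value -/
def SminStmt : Prop := AllImm fun _ _ _ _ _ _ _ _ _ _ M =>
  (∀ f g, M.Sm f → M.Sm g → ∃ m, M.Sm m ∧ ∀ p, m p ≤ f p ∧ m p ≤ g p ∧ min (f p) (g p) - 1 ≤ m p ∧
    (M.pre.gam f f p ≤ 1 → M.pre.gam g g p ≤ 1 → M.pre.gam m m p ≤ 1)) ∧
  ∀ f, M.Sm f → ∃ m, M.Sm m ∧ ∀ p, m p ≤ |f p| ∧ |f p| - 1 ≤ m p ∧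
    M.pre.gam m m p ≤ M.pre.gam f f p

/-- DIST: the smoothed distance inside an open set `O` to base points of its components -/
def DistStmt : Prop := AllImm fun _ _ _ _ X _ _ _ _ _ M => ∀ (O K : Set X), IsOpen O →
  IsCompact K → K ⊆ O → ∃ (r : X → ℝ) (b : X → X), M.Sm r ∧ (∀ p ∈ K, M.pre.gam r r p ≤ 2) ∧
    (∀ c ⊆ O, IsPreconnected c → ∀ p ∈ c, ∀ q ∈ c, b p = b q) ∧
    ∀ x ∈ K, ∃ γ : ℝ → X, Continuous γ ∧ γ 0 = x ∧ γ 1 = b x ∧ ∀ s ∈ Icc (0 : ℝ) 1, γ s ∈ O ∧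
      (γ s ∈ K → ∀ f, Lip1 M O f → |f x - f (γ s)| ≤ r x - r (γ s) + 1)

/-- closing up, embedded -/
def CloseInjStmt : Prop := AllImm fun d ι _ _ X _ _ _ _ _ M => Injective M.x →
  ∀ (V : X → ℝ) (K : Set X) (δ : ℝ), Continuous V → M.Form V → IsCompact K → 0 < δ →
  ∃ (Y : Type) (_ : TopologicalSpace Y) (_ : T2Space Y) (_ : SecondCountableTopology Y)
    (_ : MeasurableSpace Y) (_ : BorelSpace Y) (_ : CompactSpace Y) (N : Imm d (Option ι) Y)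
    (e : OpenPartialHomeomorph X Y) (c : ℝ) (F : Y → ℝ), Injective N.x ∧ K ⊆ e.source ∧
    (∀ p ∈ e.source, N.x (e p) = up c (M.x p)) ∧ N.Sm F ∧
    ∀ p ∈ e.source, V p - δ ≤ N.pre.EF F (e p)

/-! ### necks -/

/-- NKLIM: the slabs of a weak sequence have small components -/
def NkLimStmt : Prop := AllW fun m _ _ _ X _ _ _ _ _ _ M F h 𝒰 u => m = 2 →
  ∀ ψ : X → ℝ, Lip1 M {p | 0 < ψ p} ψ →
  (∀ p, 0 < ψ p → 1 / 2 ≤ M.pre.EF F p + h p ^ 2 - 2 * √(M.pre.gam h h p)) →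
  ∀ T : ℝ, ∀ᶠ j in (𝒰 : Filter ℕ), SmallA M ψ ({p | |u j p| ≤ T} ∩ {p | 12 ≤ ψ p})

/-- NECK: one long neck across the band `|φ| ≤ 2`, constant where `3 ≤ |φ|` -/
def NeckStmt : Prop := AllCl fun d _ _ _ X _ _ _ _ _ _ M F => d = 3 →
  ∀ (φ ψ : X → ℝ) (a T δ : ℝ), M.Sm φ → 0 < a → 0 < δ → Lip1 M {p | 0 < ψ p} ψ →
  (∀ p, 0 < ψ p → M.pre.gam φ φ p ≤ a ^ 2 ∧ 1 / 2 + 12 * a ^ 2 ≤ M.pre.EF F p) →
  ∃ (u F' : X → ℝ) (lo hi : ℝ), M.Sm u ∧ M.Sm F' ∧ lo < -T ∧ T < hi ∧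
    (∀ p, M.pre.gam φ φ p ≤ a ^ 2 → M.pre.EF F p - 12 * a ^ 2 - δ ≤ (M.gS u).EF F' p) ∧
    (∀ p, lo ≤ u p ∧ u p ≤ hi) ∧ (∀ p, 2 ≤ φ p → T < u p) ∧ (∀ p, φ p ≤ -2 → u p < -T) ∧
    (∀ p, 3 ≤ φ p → u p = hi) ∧ (∀ p, φ p ≤ -3 → u p = lo) ∧
    SmallA M ψ ({p | |u p| ≤ T} ∩ {p | 12 ≤ ψ p})

/-- CIRC: a circle map is made slow -/
def CircStmt : Prop := AllCl fun _ _ _ _ X _ _ _ _ _ _ M F =>
  ∀ (z : X → Circle) (ε : ℝ), SmC M z → 0 < ε → ExL M F ε fun _ _ _ N =>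
    ∃ z' : X → Circle, SmC M z' ∧ (∀ O, Lifts z' O → Lifts z O) ∧
      ∀ p, N.pre.gam (fun q => (z' q : ℂ).im) (fun q => (z' q : ℂ).im) p ≤ ε

/-- CUT: a neck which kills one circle map -/
def CutStmt : Prop := AllCl fun d _ _ _ X _ _ _ _ _ _ M F => d = 3 →
  ∀ (z : X → Circle) (ψ : X → ℝ) (T ε : ℝ), SmC M z → 0 < ε → Lip1 M {p | 0 < ψ p} ψ →
  (∀ p, 0 < ψ p → 1 / 2 + ε ≤ M.pre.EF F p) → ExL M F ε fun _ _ _ N =>
    ∃ u : X → ℝ, Lip1 N univ u ∧ Lifts z {p | u p ≠ 0} ∧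
      SmallA M ψ ({p | |u p| ≤ T} ∩ {p | 12 ≤ ψ p})

/-- CUTS: necks which kill a list of circle maps and absorb later small sets -/
def CutsStmt : Prop := AllCl fun d _ _ _ X _ _ _ _ _ _ M F => d = 3 →
  ∀ (zs : List (X → Circle)) (ψ : X → ℝ) (c ε : ℝ), (∀ z ∈ zs, SmC M z) → 0 < ε →
  Lip1 M {p | 0 < ψ p} ψ → (∀ p, 0 < ψ p → 1 / 2 + ε ≤ M.pre.EF F p) →
  ∃ (κ : Type) (_ : Fintype κ) (_ : DecidableEq κ) (N : Imm d κ X) (F' m : X → ℝ),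
    Later M F N F' ε ∧ Lip1 N univ m ∧ (∀ z ∈ zs, Lifts z {p | 0 < m p}) ∧
    ∀ B : Set X, IsClosed B → B ⊆ {p | 12 ≤ ψ p} → SmallA N ψ B →
      SmallA M ψ (B ∪ {p | m p ≤ c} ∩ {p | 12 ≤ ψ p})

/-- what a piece delivers -/
def Out (M : Imm d ι Y) (ψ : Y → ℝ) : Prop :=
  ∃ A : Set Y, IsClosed A ∧ A ⊆ {p | 12 ≤ ψ p} ∧ SmallA M ψ A ∧
    ∀ f, Lip1 M {p | 0 < ψ p} f → ∀ D : ℝ, 11 ≤ D → Small f {p | 0 < ψ p ∧ ψ p ≤ 60} D →
      Small f ({p | 30 < ψ p} \ A) (D + 260)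

/-- PIECE, on a closed manifold -/
def PieceStmt : Prop := AllCl fun d _ _ _ X _ _ _ _ _ _ M F => d = 3 →
  ∀ ψ : X → ℝ, Lip1 M {p | 0 < ψ p} ψ → (∀ p, 0 < ψ p → 4 / 5 ≤ M.pre.EF F p) → Out M ψ

/-- PIECE, on an open manifold -/
def PieceXStmt : Prop := AllImm fun d _ _ _ X _ _ _ _ _ M => d = 3 → Injective M.x →
  M.Form (fun _ => 9 / 10) → ∀ ψ : X → ℝ, Lip1 M {p | 0 < ψ p} ψ → IsCompact {p | 0 ≤ ψ p} →
  Out M ψ

/-- open manifolds of dimension three with an exhaustion -/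
def AllRad (Q : ∀ (d : ℕ) (ι : Type) [Fintype ι] [DecidableEq ι] (X : Type) [TopologicalSpace X]
    [MeasurableSpace X], Imm d ι X → (X → ℝ) → Prop) : Prop :=
  AllImm fun d ι _ _ X _ _ _ _ _ M => d = 3 → Injective M.x → M.Form (fun _ => 1) →
    ∀ ρ : X → ℝ, M.Sm ρ → (∀ p, M.pre.gam ρ ρ p ≤ 4) → (∀ c, IsCompact {p | ρ p ≤ c}) →
    Q d ι X M ρ

/-- RNECK: one radial neck -/
def RNeckStmt : Prop := AllRad fun _ _ _ _ X _ _ M ρ => ∀ R : ℝ,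
  ∃ (u F : X → ℝ) (lo hi : ℝ), M.Sm u ∧ M.Sm F ∧ lo < -40 ∧ 40 < hi ∧
    (∀ p, |ρ p - R| < 350 → 24 / 25 ≤ (M.gS u).EF F p) ∧ (∀ p, 400 ≤ |ρ p - R| → F p = 0) ∧
    (∀ p, lo ≤ u p ∧ u p ≤ hi) ∧ (∀ p, R + 120 ≤ ρ p → u p = hi) ∧
    (∀ p, ρ p ≤ R - 120 → u p = lo) ∧ ∀ f, Lip1 M univ f → Small f {p | |u p| ≤ 40} 11

/-- RAD: all radial necks -/
def RadStmt : Prop := AllRad fun _ _ _ _ X _ _ M _ =>
  ∃ (U : X → ℝ) (hU : M.Sm U) (t : ℕ → ℝ), (M.graph U hU).Form (fun _ => 9 / 10) ∧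
    (∀ c, IsCompact {p | U p ≤ c}) ∧ (∀ p, t 0 + 40 < U p) ∧ (∀ k, t k + 80 ≤ t (k + 1)) ∧
    ∀ k f, Lip1 M univ f → Small f {p | |U p - t k| ≤ 40} 11

/-! ### trivial API -/

theorem Small.mono {f : Y → ℝ} {Z Z' : Set Y} {D D' : ℝ} (h : Small f Z D) (hZ : Z' ⊆ Z)
    (hD : D ≤ D') : Small f Z' D' :=
  fun c hc h1 p hp q hq => (h c (hc.trans hZ) h1 p hp q hq).trans hD

/-- for a closed set it is enough to look at closed preconnected subsets -/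
theorem small_of_closed {f : Y → ℝ} {Z : Set Y} {D : ℝ} (hZ : IsClosed Z)
    (h : ∀ c ⊆ Z, IsClosed c → IsPreconnected c → ∀ p ∈ c, ∀ q ∈ c, f p - f q ≤ D) : Small f Z D :=
  fun c hc h1 p hp q hq => h (closure c) (hZ.closure_subset_iff.2 hc) isClosed_closure h1.closure
    p (subset_closure hp) q (subset_closure hq)

theorem Lip1.mono {N : Imm d ι Y} {O O' : Set Y} {f : Y → ℝ} (h : Lip1 N O f) (hO : O' ⊆ O) :
    Lip1 N O' f := ⟨h.1, fun p hp => h.2 p (hO hp)⟩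

theorem SmallA.mono {N : Imm d ι Y} {ψ : Y → ℝ} {Z Z' : Set Y} (h : SmallA N ψ Z) (hZ : Z' ⊆ Z) :
    SmallA N ψ Z' := fun f hf => (h f hf).mono hZ le_rfl

theorem Lifts.mono {z : Y → Circle} {O O' : Set Y} (h : Lifts z O) (hO : O' ⊆ O) : Lifts z O' :=
  let ⟨g, h1, h2⟩ := h
  ⟨g, h1.mono hO, fun p hp => h2 p (hO hp)⟩

section
variable {κ : Type} [Fintype κ] [DecidableEq κ] {M : Imm d ι Y} {F F' : Y → ℝ} {N : Imm d κ Y}
  {ε : ℝ}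

theorem Later.sm_iff (h : Later M F N F' ε) {Z : Type} [NormedAddCommGroup Z] [NormedSpace ℝ Z]
    {f : Y → Z} : N.Sm f ↔ M.Sm f := by
  change SmA N.ch f ↔ SmA M.ch f
  rw [h.ch]

theorem Later.lip (h : Later M F N F' ε) {O : Set Y} {f : Y → ℝ} (hf : Lip1 M O f) : Lip1 N O f :=
  ⟨h.sm_iff.2 hf.1, fun p hp => (h.gam f hf.1 p).trans (hf.2 p hp)⟩

theorem Later.small (h : Later M F N F' ε) {ψ : Y → ℝ} {Z : Set Y} (hZ : SmallA N ψ Z) :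
    SmallA M ψ Z := fun f hf => hZ f (h.lip hf)

theorem Later.trans {μ : Type} [Fintype μ] [DecidableEq μ] {N' : Imm d μ Y} {F'' : Y → ℝ} {ε' : ℝ}
    (h : Later M F N F' ε) (h' : Later N F' N' F'' ε') : Later M F N' F'' (ε + ε') :=
  ⟨h'.ch.trans h.ch, h'.inj, h.sm_iff.1 h'.sm,
    fun f hf p => (h'.gam f (h.sm_iff.2 hf) p).trans (h.gam f hf p),
    fun p => by linarith [h.E p, h'.E p]⟩

end

end Crest.Agent.N228.N3

end
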